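import Vale.Agent.P154.FamB

/-! symmetric families of likelihood vectors: see `FamA` (products, channel) and `FamB` (powers,
mixtures) -/
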