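import Vale.Agent.P154.N3E8

/-! P154, three states: table of degree 8 for a cone -/

namespace Vale.Agent.P154N

open Vale.Agent.P154.G Vale.Agent.P154.Q4L

/-- the cone -/
def K8_100_110_111 : Cn := ((1, 0, 0), (1, 1, 0), (1, 1, 1))

/-- row -/
def w8_100_110_111_0 : List ℕ := [
  1, 16, 24, 112, 336, 252, 448, 2016, 3024, 1512, 1120, 6720, 15120, 15120, 5670, 1792, 13440,
  40320, 60480, 45360, 13608, 1792, 16128, 60480, 120960, 136080, 81648, 20412, 1024, 10752,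
  48384, 120960, 181440, 163296, 81648, 17496, 256, 3072, 16128, 48384, 90720, 108864, 81648,
  34992, 6561]

/-- row -/
def w8_100_110_111_1 : List ℕ := [
  0, 1, 2, 13, 46, 39, 72, 366, 603, 324, 220, 1460, 3555, 3780, 1485, 400, 3280, 10560, 16740,
  13095, 4050, 432, 4224, 16920, 35640, 41715, 25758, 6561, 256, 2912, 13968, 36720, 57240,
  52974, 26973, 5832, 64, 832, 4656, 14688, 28620, 35316, 26973, 11664, 2187]

/-- row -/
def w8_100_110_111_2 : List ℕ := [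
  0, 0, 0, 1, 4, 4, 10, 56, 102, 60, 41, 296, 780, 888, 369, 88, 780, 2692, 4524, 3708, 1188,
  104, 1096, 4686, 10416, 12717, 8100, 2106, 64, 784, 4008, 11100, 18018, 17172, 8910, 1944, 16,
  224, 1336, 4440, 9009, 11448, 8910, 3888, 729]

/-- row -/
def w8_100_110_111_3 : List ℕ := [
  0, 0, 0, 0, 0, 0, 1, 6, 12, 8, 7, 54, 153, 188, 84, 19, 180, 663, 1184, 1023, 342, 25, 282,
  1284, 3016, 3852, 2538, 675, 16, 210, 1143, 3340, 5658, 5562, 2943, 648, 4, 60, 381, 1336,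
  2829, 3708, 2943, 1296, 243]

/-- row -/
def w8_100_110_111_4 : List ℕ := [
  0, 0, 0, 0, 0, 0, 0, 0, 0, 0, 1, 8, 24, 32, 16, 4, 40, 156, 296, 272, 96, 6, 72, 348, 864,
  1158, 792, 216, 4, 56, 324, 1000, 1772, 1800, 972, 216, 1, 16, 108, 400, 886, 1200, 972, 432,
  81]

/-- row -/
def w8_100_110_111_5 : List ℕ := [
  0, 0, 0, 0, 1, 1, 0, 11, 27, 16, 0, 50, 195, 250, 105, 0, 120, 640, 1270, 1110, 360, 0, 160,
  1080, 2900, 3870, 2565, 675, 0, 112, 912, 3080, 5520, 5535, 2943, 648, 0, 32, 304, 1232, 2760,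
  3690, 2943, 1296, 243]

/-- row -/
def w8_100_110_111_6 : List ℕ := [
  0, 0, 0, 0, 0, 0, 0, 1, 3, 2, 0, 8, 36, 51, 23, 0, 25, 150, 324, 301, 102, 0, 38, 285, 826,
  1164, 801, 216, 0, 28, 252, 915, 1726, 1791, 972, 216, 0, 8, 84, 366, 863, 1194, 972, 432, 81]

/-- row -/
def w8_100_110_111_7 : List ℕ := [
  0, 0, 0, 0, 0, 0, 0, 0, 0, 0, 0, 1, 5, 8, 4, 0, 5, 33, 78, 78, 28, 0, 9, 74, 232, 347, 249, 69,
  0, 7, 69, 270, 538, 579, 321, 72, 0, 2, 23, 108, 269, 386, 321, 144, 27]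

/-- row -/
def w8_100_110_111_8 : List ℕ := [
  0, 0, 0, 0, 0, 0, 0, 0, 0, 0, 0, 0, 1, 2, 1, 0, 0, 6, 20, 22, 8, 0, 0, 13, 60, 103, 78, 22, 0,
  0, 12, 70, 162, 186, 106, 24, 0, 0, 4, 28, 81, 124, 106, 48, 9]

/-- row -/
def w8_100_110_111_9 : List ℕ := [
  0, 0, 0, 0, 0, 0, 0, 0, 0, 0, 0, 0, 0, 0, 0, 0, 0, 1, 4, 5, 2, 0, 0, 3, 16, 30, 24, 7, 0, 0, 3,
  20, 50, 60, 35, 8, 0, 0, 1, 8, 25, 40, 35, 16, 3]

/-- the table -/
def tab8_100_110_111 : List (List ℕ) := [
  w8_100_110_111_0, w8_100_110_111_1, w8_100_110_111_2, w8_100_110_111_3, w8_100_110_111_4,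
  w8_100_110_111_5, w8_100_110_111_6, w8_100_110_111_7, w8_100_110_111_8, w8_100_110_111_9]

lemma u8_100_110_111_0 (x y z : ℝ) : ndot w8_100_110_111_0 (mons ec8 x y z) =
    (x + 2 * y + 3 * z) ^ 8 *
      (((x + y + z) * (y + z) + (x + y + z) * (z) + (y + z) * (z)) ^ 0 *
      ((x + y + z) * (y + z) * (z)) ^ 0) := by
  simp only [w8_100_110_111_0, mons, ec8, List.map_cons, List.map_nil, ndot]
  push_cast
  ring

lemma u8_100_110_111_1 (x y z : ℝ) : ndot w8_100_110_111_1 (mons ec8 x y z) =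
    (x + 2 * y + 3 * z) ^ 6 *
      (((x + y + z) * (y + z) + (x + y + z) * (z) + (y + z) * (z)) ^ 1 *
      ((x + y + z) * (y + z) * (z)) ^ 0) := by
  simp only [w8_100_110_111_1, mons, ec8, List.map_cons, List.map_nil, ndot]
  push_cast
  ring

lemma u8_100_110_111_2 (x y z : ℝ) : ndot w8_100_110_111_2 (mons ec8 x y z) =
    (x + 2 * y + 3 * z) ^ 4 *
      (((x + y + z) * (y + z) + (x + y + z) * (z) + (y + z) * (z)) ^ 2 *
      ((x + y + z) * (y + z) * (z)) ^ 0) := by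
  simp only [w8_100_110_111_2, mons, ec8, List.map_cons, List.map_nil, ndot]
  push_cast
  ring

lemma u8_100_110_111_3 (x y z : ℝ) : ndot w8_100_110_111_3 (mons ec8 x y z) =
    (x + 2 * y + 3 * z) ^ 2 *
      (((x + y + z) * (y + z) + (x + y + z) * (z) + (y + z) * (z)) ^ 3 *
      ((x + y + z) * (y + z) * (z)) ^ 0) := by
  simp only [w8_100_110_111_3, mons, ec8, List.map_cons, List.map_nil, ndot]
  push_cast
  ring

lemma u8_100_110_111_4 (x y z : ℝ) : ndot w8_100_110_111_4 (mons ec8 x y z) =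
    (x + 2 * y + 3 * z) ^ 0 *
      (((x + y + z) * (y + z) + (x + y + z) * (z) + (y + z) * (z)) ^ 4 *
      ((x + y + z) * (y + z) * (z)) ^ 0) := by
  simp only [w8_100_110_111_4, mons, ec8, List.map_cons, List.map_nil, ndot]
  push_cast
  ring

lemma u8_100_110_111_5 (x y z : ℝ) : ndot w8_100_110_111_5 (mons ec8 x y z) =
    (x + 2 * y + 3 * z) ^ 5 *
      (((x + y + z) * (y + z) + (x + y + z) * (z) + (y + z) * (z)) ^ 0 *
      ((x + y + z) * (y + z) * (z)) ^ 1) := by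
  simp only [w8_100_110_111_5, mons, ec8, List.map_cons, List.map_nil, ndot]
  push_cast
  ring

lemma u8_100_110_111_6 (x y z : ℝ) : ndot w8_100_110_111_6 (mons ec8 x y z) =
    (x + 2 * y + 3 * z) ^ 3 *
      (((x + y + z) * (y + z) + (x + y + z) * (z) + (y + z) * (z)) ^ 1 *
      ((x + y + z) * (y + z) * (z)) ^ 1) := by
  simp only [w8_100_110_111_6, mons, ec8, List.map_cons, List.map_nil, ndot]
  push_cast
  ring

lemma u8_100_110_111_7 (x y z : ℝ) : ndot w8_100_110_111_7 (mons ec8 x y z) =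
    (x + 2 * y + 3 * z) ^ 1 *
      (((x + y + z) * (y + z) + (x + y + z) * (z) + (y + z) * (z)) ^ 2 *
      ((x + y + z) * (y + z) * (z)) ^ 1) := by
  simp only [w8_100_110_111_7, mons, ec8, List.map_cons, List.map_nil, ndot]
  push_cast
  ring

lemma u8_100_110_111_8 (x y z : ℝ) : ndot w8_100_110_111_8 (mons ec8 x y z) =
    (x + 2 * y + 3 * z) ^ 2 *
      (((x + y + z) * (y + z) + (x + y + z) * (z) + (y + z) * (z)) ^ 0 *
      ((x + y + z) * (y + z) * (z)) ^ 2) := by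
  simp only [w8_100_110_111_8, mons, ec8, List.map_cons, List.map_nil, ndot]
  push_cast
  ring

lemma u8_100_110_111_9 (x y z : ℝ) : ndot w8_100_110_111_9 (mons ec8 x y z) =
    (x + 2 * y + 3 * z) ^ 0 *
      (((x + y + z) * (y + z) + (x + y + z) * (z) + (y + z) * (z)) ^ 1 *
      ((x + y + z) * (y + z) * (z)) ^ 2) := by
  simp only [w8_100_110_111_9, mons, ec8, List.map_cons, List.map_nil, ndot]
  push_cast
  ring

lemma s8_100_110_111 (x y z : ℝ) : sg (pt K8_100_110_111 x y z) = x + 2 * y + 3 * z := by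
  rw [sg3]
  simp [pt, K8_100_110_111]
  try ring

lemma e8_100_110_111 (x y z : ℝ) : E2 (pt K8_100_110_111 x y z) =
    (x + y + z) * (y + z) + (x + y + z) * (z) + (y + z) * (z) := by
  rw [E2]
  simp [pt, K8_100_110_111]

lemma f8_100_110_111 (x y z : ℝ) : E3 (pt K8_100_110_111 x y z) =
    (x + y + z) * (y + z) * (z) := by
  rw [E3]
  simp [pt, K8_100_110_111]

theorem T8_100_110_111 : TabC 45 ec8 kc8 tab8_100_110_111 K8_100_110_111 where
  len := by decide +kernel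
  val := by
    intro x y z h
    rw [s8_100_110_111] at h
    rw [e8_100_110_111, f8_100_110_111]
    simp only [tab8_100_110_111, KV, kc8, List.map_cons, List.map_nil,
      u8_100_110_111_0, u8_100_110_111_1, u8_100_110_111_2, u8_100_110_111_3, u8_100_110_111_4,
      u8_100_110_111_5, u8_100_110_111_6, u8_100_110_111_7, u8_100_110_111_8, u8_100_110_111_9,
      h, one_pow, one_mul]

end Vale.Agent.P154N
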