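import Vale.Agent.P154.N3BRange
import Vale.Agent.P154.N3ReflJ
import Vale.Agent.P154.N3K8_100_110_111

/-! P154, three states: bilinear inequality (G) at eigenvalue -1/2 -/

namespace Vale.Agent.P154N

open Vale.Agent.P154.G Vale.Agent.P154.Q4L

/-- the functional -/
def FBG : List ℤ := [
  20000, -120000, 180000, 0, 0, 0, 0, 0, 0, 0]

/-- the majorant -/
def LBG : List (ℤ × ℕ × ℕ × ℕ) := [
  (23157, 0, 0, 0), (-445685, 1, 0, 0), (2515344, 1, 1, 0), (-3859256, 0, 0, 1), (1233332, 2, 0,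
  0), (-12215212, 2, 1, 0), (22575974, 1, 0, 1), (13384282, 2, 2, 0), (-35336298, 1, 1, 1),
  (12162384, 0, 0, 2), (-1755029, 3, 0, 0), (14288306, 3, 1, 0), (-19700340, 2, 0, 1),
  (-27001336, 3, 2, 0), (45582466, 2, 1, 1), (-12053818, 1, 0, 2), (10537498, 3, 3, 0),
  (-8419064, 2, 2, 1), (1369073, 4, 0, 0), (-7993156, 4, 1, 0), (6813098, 3, 0, 1), (11990496, 4,
  2, 0), (-9295402, 3, 1, 1), (-5494840, 4, 3, 0), (-533966, 5, 0, 0), (1576962, 5, 1, 0),
  (-386278, 4, 0, 1), (-1709146, 5, 2, 0), (61982, 6, 0, 0), (103782, 6, 1, 0), (10822, 7, 0, 0)]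

/-- coefficients -/
def mjBG_0_0 : List ℤ := [
  138942, 0, 0, 0, 0, 0, 0, 0, 0, 0]

/-- coefficients -/
def mjBG_0_1 : List ℤ := [
  755934, 120000, -180000, 0, 0, 0, 0, 0, 0, 0]

/-- coefficients -/
def mjBG_0_2 : List ℤ := [
  1550542, 1297360, -1800000, 0, 0, 0, 0, 0, 0, 0]

/-- coefficients -/
def mjBG_0_3 : List ℤ := [
  1521124, 3773842, -7020000, 0, 0, 2959926, 0, 0, 0, 0]

/-- coefficients -/
def mjBG_0_4 : List ℤ := [
  719772, 4104774, -9291756, 0, 0, 6038654, 0, 0, 0, 0]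

/-- coefficients -/
def mjBG_0_5 : List ℤ := [
  132228, 1525334, -3948552, 0, 0, 2931066, 503980, 0, 0, 0]

/-- coefficients -/
def mjBG_0 : List (List ℤ) := [
  mjBG_0_0, mjBG_0_1, mjBG_0_2, mjBG_0_3, mjBG_0_4, mjBG_0_5]

lemma mjcBG_0 : chkM 7 1 LBG FBG kc8 1 0 2 1 mjBG_0 = true := by decide +kernel

theorem mjpBG_0 {a b : ℝ} (hK : InK root a b) : ∀ q ∈ mjBG_0, 0 ≤ zd q (KV kc8 a b) :=
  T8_100_110_111.posAll (by decide +kernel) hK

/-- coefficients -/
def mjBG_1_0 : List ℤ := [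
  66114, 762667, -1974276, 0, 0, 1465533, 251990, 0, 0, 0]

/-- coefficients -/
def mjBG_1_1 : List ℤ := [
  271938, 7335231, -20322384, 0, 0, 15944341, 3779850, 0, 0, 0]

/-- coefficients -/
def mjBG_1_2 : List ℤ := [
  355244, 26930426, -80223768, 0, 0, 65353974, 22679100, 0, 0, 0]

/-- coefficients -/
def mjBG_1_3 : List ℤ := [
  161156, 47002010, -150459696, 0, 0, 122885262, 68037300, 0, 0, 0]

/-- coefficients -/
def mjBG_1_4 : List ℤ := [
  15954, 39175371, -133392132, 0, 0, 101202237, 102055950, 0, 0, 0]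

/-- coefficients -/
def mjBG_1_5 : List ℤ := [
  4698, 12803895, -45716832, 0, 0, 26829549, 61233570, 0, 0, 0]

/-- coefficients -/
def mjBG_1 : List (List ℤ) := [
  mjBG_1_0, mjBG_1_1, mjBG_1_2, mjBG_1_3, mjBG_1_4, mjBG_1_5]

lemma mjcBG_1 : chkM 7 16 LBG FBG kc8 2 1 4 3 mjBG_1 = true := by decide +kernel

theorem mjpBG_1 {a b : ℝ} (hK : InK root a b) : ∀ q ∈ mjBG_1, 0 ≤ zd q (KV kc8 a b) :=
  T8_100_110_111.posAll (by decide +kernel) hK

/-- coefficients -/
def mjBG_2_0 : List ℤ := [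
  9396, 25607790, -91433664, 0, 0, 53659098, 122467140, 0, 0, 0]

/-- coefficients -/
def mjBG_2_1 : List ℤ := [
  7536, 24844104, -95192028, 0, 0, 32945508, 204111900, 0, 0, 0]

/-- coefficients -/
def mjBG_2_2 : List ℤ := [
  72160, 9169738, -37029744, 0, 0, -6814098, 136074600, 0, 0, 0]

/-- coefficients -/
def mjBG_2_3 : List ℤ := [
  19870, 1765582, -6992712, 0, 0, -8904030, 45358200, 0, 0, 0]

/-- coefficients -/
def mjBG_2_4 : List ℤ := [
  574, 224800, -783696, 0, 0, -2096128, 7559700, 0, 0, 0]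

/-- coefficients -/
def mjBG_2_5 : List ℤ := [
  30, 17042, -56796, 0, 0, -147662, 503980, 0, 0, 0]

/-- coefficients -/
def mjBG_2 : List (List ℤ) := [
  mjBG_2_0, mjBG_2_1, mjBG_2_2, mjBG_2_3, mjBG_2_4, mjBG_2_5]

lemma mjcBG_2 : chkM 7 1 LBG FBG kc8 4 3 1 1 mjBG_2 = true := by decide +kernel

theorem mjpBG_2 {a b : ℝ} (hK : InK root a b) : ∀ q ∈ mjBG_2, 0 ≤ zd q (KV kc8 a b) :=
  T8_100_110_111.posAll (by decide +kernel) hK

/-- coefficients -/
def mjBG_3_0 : List ℤ := [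
  30, 17042, -56796, 0, 0, -147662, 503980, 0, 0, 0]

/-- coefficients -/
def mjBG_3_1 : List ℤ := [
  326, 286460, -920184, 0, 0, -2333732, 7559700, 0, 0, 0]

/-- coefficients -/
def mjBG_3_2 : List ℤ := [
  16894, 2505502, -8630568, 0, 0, -11755278, 45358200, 0, 0, 0]

/-- coefficients -/
def mjBG_3_3 : List ℤ := [
  226316, 10864658, -42240096, 0, 0, -19644714, 136074600, 0, 0, 0]

/-- coefficients -/
def mjBG_3_4 : List ℤ := [
  986040, 21695064, -96972732, 0, 0, 7284276, 204111900, 0, 0, 0]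

/-- coefficients -/
def mjBG_3_5 : List ℤ := [
  1219356, 15889770, -83049192, 0, 0, 34413174, 122467140, 0, 0, 0]

/-- coefficients -/
def mjBG_3 : List (List ℤ) := [
  mjBG_3_0, mjBG_3_1, mjBG_3_2, mjBG_3_3, mjBG_3_4, mjBG_3_5]

lemma mjcBG_3 : chkM 7 1 LBG FBG kc8 1 1 2 3 mjBG_3 = true := by decide +kernel

theorem mjpBG_3 {a b : ℝ} (hK : InK root a b) : ∀ q ∈ mjBG_3, 0 ≤ zd q (KV kc8 a b) :=
  T8_100_110_111.posAll (by decide +kernel) hK

/-- coefficients -/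
def krBG_0 : List ℤ := [
  33944, 24248532, -154994112, 230942340, 0, 23184468, -17083224, 110449332, -401638176, 0]

/-- coefficients -/
def krBG_1 : List ℤ := [
  22262022, -383875845, 1780661934, -2375992521, 0, 80796447, -686625822, -1037945097,
  4082961330, 0]

/-- coefficients -/
def krBG_2 : List ℤ := [
  -147321288, 1832791914, -7561905390, 10222199838, 0, -1296189378, 4594258116, 1001338362,
  -10811500110, 0]

/-- coefficients -/
def krBG_3 : List ℤ := [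
  230942340, -2659144140, 11381928030, -17401854024, 0, 2156621112, -5860244376, 5512578444,
  3704642406, 0]

/-- coefficients -/
def krBG_4 : List ℤ := [
  0, 0, 0, 0, 0, 0, 0, 0, 0, 0]

/-- coefficients -/
def krBG_5 : List ℤ := [
  108978534, -796771053, 2766769326, -4414480641, 0, -1359288729, 6054233058, 3649460751,
  -19483007598, 0]

/-- coefficients -/
def krBG_6 : List ℤ := [
  -320336694, 2200538907, -9280249542, 15381111951, 0, 11697814827, -38783051910, -10643053725,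
  100340313786, 0]

/-- coefficients -/
def krBG_7 : List ℤ := [
  40864824, 1361645154, -8781964110, 22038286734, 0, -17244286506, 44090675244, -33063443622,
  -76394888694, 0]

/-- coefficients -/
def krBG_8 : List ℤ := [
  81179982, -3431569941, 20657503872, -34492801941, 0, -6619122441, 18706584690, 38197444347,
  -71496161784, 0]

/-- coefficients -/
def krBG_9 : List ℤ := [
  0, 0, 0, 0, 0, 0, 0, 0, 0, 0]

/-- the kernel -/
def krBG : List (List ℤ) := [
  krBG_0, krBG_1, krBG_2, krBG_3, krBG_4, krBG_5, krBG_6, krBG_7, krBG_8, krBG_9]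

/-- the right-hand side -/
def rhBG : List (List ℤ) := [
  [72930, -317520, 476190, 0, 0, 0, 0, 0, 0, 0], [-351660, 1624860, -2789640, 0, 0, 0, 0, 0, 0,
  0], [409860, -2084400, 4184460, 0, 0, 0, 0, 0, 0, 0], [0, 0, 0, 0, 0, 0, 0, 0, 0, 0], [0, 0, 0,
  0, 0, 0, 0, 0, 0, 0], [0, 0, 0, 0, 0, 0, 0, 0, 0, 0], [0, 0, 0, 0, 0, 0, 0, 0, 0, 0], [0, 0, 0,
  0, 0, 0, 0, 0, 0, 0], [0, 0, 0, 0, 0, 0, 0, 0, 0, 0], [0, 0, 0, 0, 0, 0, 0, 0, 0, 0]]

lemma krcBG : chkJ 7 7 1 2 LBG kc8 rhBG 6 krBG = true := by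
  decide +kernel

theorem kposBG {a b a' b' : ℝ} (hK : InK root a b) (hW : InK root a' b') :
    0 ≤ rdot (KV kc8 a b) (krBG.map fun c => zd c (KV kc8 a' b')) :=
  T8_100_110_111.pos2 T8_100_110_111 (C := krBG) (by decide +kernel) hK hW

lemma frBG (a b : ℝ) : FR 20000 FBG kc8 a b = 1 * fe 2 a b := by
  simp only [FR, FBG, zd, KV, kc8, List.map_cons, List.map_nil, fe, Matrix.cons_val]
  push_cast
  ring

theorem majBG : Maj 0 (3 / 2) (fun a b => 1 * fe 2 a b) (LR 20000 LBG) := by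
  intro v hv h1 Z hZ0 hZ1
  have hK := in_root hv h1
  show Z * (1 * fe 2 (E2 v) (E3 v)) ≤ _
  rw [← frBG]
  rcases le_total Z (1 / 2) with hb0 | hb0
  · exact chkM_spec (by norm_num) (by norm_num) mjcBG_0 (by push_cast; linarith)
      (by push_cast; linarith) (mjpBG_0 hK)
  rcases le_total Z (3 / 4) with hb1 | hb1
  · exact chkM_spec (by norm_num) (by norm_num) mjcBG_1 (by push_cast; linarith)
      (by push_cast; linarith) (mjpBG_1 hK)
  rcases le_total Z 1 with hb2 | hb2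
  · exact chkM_spec (by norm_num) (by norm_num) mjcBG_2 (by push_cast; linarith)
      (by push_cast; linarith) (mjpBG_2 hK)
  exact chkM_spec (by norm_num) (by norm_num) mjcBG_3 (by push_cast; linarith)
    (by push_cast; linarith) (mjpBG_3 hK)

/-- the matrix of the inequality -/
noncomputable def matBG : Fin 4 → Fin 4 → ℝ :=
  ![![0, 0, 1, 0],
    ![0, 1307 / 250, 0, 0],
    ![1, -653 / 125, 5166 / 125, 0],
    ![0, 0, 0, 0]]

theorem bilBG : BilIneq (1) 2 matBG := by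
  intro p r hp hr hp1 hr1
  have hv : ∀ i, 0 ≤ chan (-(1 / 2)) r i := chan_nn3 (by norm_num) (by norm_num) hr
  have hv1 : sg (chan (-(1 / 2)) r) = 1 := by rw [sg_chan (by norm_num)]; exact hr1
  have h1 := SS_le_Ks' majBG hv hp hv1 hp1 (msg_range hp hr hp1 hr1)
  have h2 := chkJ_spec (M := 20000) (by norm_num) (by norm_num) (by norm_num) krcBG
    (kposBG (in_root hp hp1) (in_root hr hr1)) (c := 1 / 2) (by norm_num)
  have eE2 := E2_chan (τ := -(1 / 2)) hr1
  have eE3 := E3_chan (τ := -(1 / 2)) hr1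
  have f2 : (1 : ℝ) / 3 - (1 / 2) ^ 2 * (1 / 3 - E2 r) = E2 (chan (-(1 / 2)) r) := by
    rw [eE2]; ring
  have f3 : ((1 + (1 : ℝ) / 2) / 3) ^ 3 - ((1 + 1 / 2) / 3) ^ 2 * (1 / 2) +
      (1 + 1 / 2) / 3 * (1 / 2) ^ 2 * E2 r - (1 / 2) ^ 3 * E3 r = E3 (chan (-(1 / 2)) r) := by
    rw [eE3]; ring
  rw [f2, f3] at h2
  have h3 : SS (Pf fun a b => 1 * fe 2 a b) (chan (-(1 / 2)) r) p =
      1 * SS (Fe 2) (chan (-(1 / 2)) r) p := by
    rw [← SS_mul]
    congr 1
    funext v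
    unfold Fe Pf
    ring
  rw [h3] at h1
  have h4 : (1 : ℝ) * (1 / 2 * SS (Fe 2) (chan (-(1 / 2)) r) p) ≤
      rdot (KV kc8 (E2 p) (E3 p)) (rhBG.map fun c => zd c (KV kc8 (E2 r) (E3 r))) / (20000 : ℕ) := by
    linarith
  refine h4.trans (le_of_eq ?_)
  rw [eE2, eE3]
  simp only [Fin.sum_univ_four, matBG, fe, rhBG, rdot, zd, KV, kc8, List.map_cons, List.map_nil,
    Matrix.cons_val]
  push_cast
  ring

end Vale.Agent.P154N
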