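import Vale.Agent.P154.N3BRange
import Vale.Agent.P154.N3ReflJ
import Vale.Agent.P154.N3K8_100_110_111

/-! P154, three states: bilinear inequality (L) at eigenvalue -1/2 -/

namespace Vale.Agent.P154N

open Vale.Agent.P154.G Vale.Agent.P154.Q4L

/-- the functional -/
def FBL : List ℤ := [
  -3000, 9000, 0, 0, 0, 0, 0, 0, 0, 0]

/-- the majorant -/
def LBL : List (ℤ × ℕ × ℕ × ℕ) := [
  (245, 0, 0, 0), (-2850, 1, 0, 0), (10860, 1, 1, 0), (-10295, 0, 0, 1), (-975, 2, 0, 0), (19890,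
  2, 1, 0), (-10965, 1, 0, 1), (-94680, 2, 2, 0), (73620, 1, 1, 1), (1290, 0, 0, 2), (2355, 3, 0,
  0), (-81660, 3, 1, 0), (61950, 2, 0, 1), (354990, 3, 2, 0), (-223950, 2, 1, 1), (420, 1, 0, 2),
  (-220140, 3, 3, 0), (78810, 2, 2, 1), (2160, 4, 0, 0), (81120, 4, 1, 0), (-46455, 3, 0, 1),
  (-263400, 4, 2, 0), (94950, 3, 1, 1), (170640, 4, 3, 0), (-5985, 5, 0, 0), (-35460, 5, 1, 0),
  (11115, 4, 0, 1), (70950, 5, 2, 0), (3900, 6, 0, 0), (6090, 6, 1, 0), (-840, 7, 0, 0)]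

/-- coefficients -/
def mjBL_0_0 : List ℤ := [
  1470, 0, 0, 0, 0, 0, 0, 0, 0, 0]

/-- coefficients -/
def mjBL_0_1 : List ℤ := [
  14940, -9000, 0, 0, 0, 0, 0, 0, 0, 0]

/-- coefficients -/
def mjBL_0_2 : List ℤ := [
  57780, -64380, 0, 0, 0, 0, 0, 0, 0, 0]

/-- coefficients -/
def mjBL_0_3 : List ℤ := [
  104310, -140280, 0, 0, 0, -107310, 0, 0, 0, 0]

/-- coefficients -/
def mjBL_0_4 : List ℤ := [
  88800, -123120, -17400, 0, 0, -188130, 0, 0, 0, 0]

/-- coefficients -/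
def mjBL_0_5 : List ℤ := [
  28920, -38310, -17820, 0, 0, -84540, 9900, 0, 0, 0]

/-- coefficients -/
def mjBL_0 : List (List ℤ) := [
  mjBL_0_0, mjBL_0_1, mjBL_0_2, mjBL_0_3, mjBL_0_4, mjBL_0_5]

lemma mjcBL_0 : chkM 7 1 LBL FBL kc8 1 0 2 1 mjBL_0 = true := by decide +kernel

theorem mjpBL_0 {a b : ℝ} (hK : InK root a b) : ∀ q ∈ mjBL_0, 0 ≤ zd q (KV kc8 a b) :=
  T8_100_110_111.posAll (by decide +kernel) hK

/-- coefficients -/
def mjBL_1_0 : List ℤ := [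
  14460, -19155, -8910, 0, 0, -42270, 4950, 0, 0, 0]

/-- coefficients -/
def mjBL_1_1 : List ℤ := [
  128100, -164205, -116250, 0, 0, -445920, 74250, 0, 0, 0]

/-- coefficients -/
def mjBL_1_2 : List ℤ := [
  444420, -527070, -593100, 0, 0, -1761360, 445500, 0, 0, 0]

/-- coefficients -/
def mjBL_1_3 : List ℤ := [
  755460, -790890, -1466100, 0, 0, -3185460, 1336500, 0, 0, 0]

/-- coefficients -/
def mjBL_1_4 : List ℤ := [
  631440, -562815, -1729350, 0, 0, -2596050, 2004750, 0, 0, 0]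

/-- coefficients -/
def mjBL_1_5 : List ℤ := [
  208680, -155385, -755730, 0, 0, -827820, 1202850, 0, 0, 0]

/-- coefficients -/
def mjBL_1 : List (List ℤ) := [
  mjBL_1_0, mjBL_1_1, mjBL_1_2, mjBL_1_3, mjBL_1_4, mjBL_1_5]

lemma mjcBL_1 : chkM 7 16 LBL FBL kc8 2 1 4 3 mjBL_1 = true := by decide +kernel

theorem mjpBL_1 {a b : ℝ} (hK : InK root a b) : ∀ q ∈ mjBL_1, 0 ≤ zd q (KV kc8 a b) :=
  T8_100_110_111.posAll (by decide +kernel) hK

/-- coefficients -/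
def mjBL_2_0 : List ℤ := [
  417360, -310770, -1511460, 0, 0, -1655640, 2405700, 0, 0, 0]

/-- coefficients -/
def mjBL_2_1 : List ℤ := [
  411960, -214110, -2049300, 0, 0, -1543050, 4009500, 0, 0, 0]

/-- coefficients -/
def mjBL_2_2 : List ℤ := [
  158250, -46740, -1053000, 0, 0, -539730, 2673000, 0, 0, 0]

/-- coefficients -/
def mjBL_2_3 : List ℤ := [
  30030, -5640, -246600, 0, 0, -124230, 891000, 0, 0, 0]

/-- coefficients -/
def mjBL_2_4 : List ℤ := [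
  2910, -1050, -23700, 0, 0, -29310, 148500, 0, 0, 0]

/-- coefficients -/
def mjBL_2_5 : List ℤ := [
  120, -90, -420, 0, 0, -3720, 9900, 0, 0, 0]

/-- coefficients -/
def mjBL_2 : List (List ℤ) := [
  mjBL_2_0, mjBL_2_1, mjBL_2_2, mjBL_2_3, mjBL_2_4, mjBL_2_5]

lemma mjcBL_2 : chkM 7 1 LBL FBL kc8 4 3 1 1 mjBL_2 = true := by decide +kernel

theorem mjpBL_2 {a b : ℝ} (hK : InK root a b) : ∀ q ∈ mjBL_2, 0 ≤ zd q (KV kc8 a b) :=
  T8_100_110_111.posAll (by decide +kernel) hK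

/-- coefficients -/
def mjBL_3_0 : List ℤ := [
  120, -90, -420, 0, 0, -3720, 9900, 0, 0, 0]

/-- coefficients -/
def mjBL_3_1 : List ℤ := [
  690, -1650, 11100, 0, 0, -82290, 148500, 0, 0, 0]

/-- coefficients -/
def mjBL_3_2 : List ℤ := [
  3390, -12840, 171000, 0, 0, -759990, 891000, 0, 0, 0]

/-- coefficients -/
def mjBL_3_3 : List ℤ := [
  12930, -22380, 826200, 0, 0, -3400650, 2673000, 0, 0, 0]

/-- coefficients -/
def mjBL_3_4 : List ℤ := [
  19560, 61650, 1709100, 0, 0, -7264890, 4009500, 0, 0, 0]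

/-- coefficients -/
def mjBL_3_5 : List ℤ := [
  5640, 151470, 1307340, 0, 0, -5947020, 2405700, 0, 0, 0]

/-- coefficients -/
def mjBL_3 : List (List ℤ) := [
  mjBL_3_0, mjBL_3_1, mjBL_3_2, mjBL_3_3, mjBL_3_4, mjBL_3_5]

lemma mjcBL_3 : chkM 7 1 LBL FBL kc8 1 1 2 3 mjBL_3 = true := by decide +kernel

theorem mjpBL_3 {a b : ℝ} (hK : InK root a b) : ∀ q ∈ mjBL_3, 0 ≤ zd q (KV kc8 a b) :=
  T8_100_110_111.posAll (by decide +kernel) hK

/-- coefficients -/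
def krBL_0 : List ℤ := [
  1136, -12168, 184680, -330480, 0, -186840, 865080, -2857680, 1924560, 0]

/-- coefficients -/
def krBL_1 : List ℤ := [
  67002, -176061, -3190320, 8365275, 0, 4242915, -12508830, 14824215, -19960020, 0]

/-- coefficients -/
def krBL_2 : List ℤ := [
  39420, -901260, 17413650, -45951300, 0, -13550760, 27068580, 11751480, 107447310, 0]

/-- coefficients -/
def krBL_3 : List ℤ := [
  -330480, 6509970, -40627170, 73689750, 0, -639090, 59724540, -104210550, -247459050, 0]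

/-- coefficients -/
def krBL_4 : List ℤ := [
  0, 0, 0, 0, 0, 0, 0, 0, 0, 0]

/-- coefficients -/
def krBL_5 : List ℤ := [
  -333990, 2042955, -7090200, 14449995, 0, -25151445, 96552810, -55742985, -91460340, 0]

/-- coefficients -/
def krBL_6 : List ℤ := [
  -661770, -15630165, 73292040, -51087105, 0, 138566295, -542674890, 164473335, 372621060, 0]

/-- coefficients -/
def krBL_7 : List ℤ := [
  5817420, -23765400, 20696310, -12203460, 0, -13369860, -78032160, 220624560, 588587310, 0]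

/-- coefficients -/
def krBL_8 : List ℤ := [
  -13858290, 105694065, -203237910, 46834605, 0, -307853055, 1115129430, -294293655, -1224479430,
  0]

/-- coefficients -/
def krBL_9 : List ℤ := [
  0, 0, 0, 0, 0, 0, 0, 0, 0, 0]

/-- the kernel -/
def krBL : List (List ℤ) := [
  krBL_0, krBL_1, krBL_2, krBL_3, krBL_4, krBL_5, krBL_6, krBL_7, krBL_8, krBL_9]

/-- the right-hand side -/
def rhBL : List (List ℤ) := [
  [-2454, -1638, 0, 0, 0, 0, 0, 0, 0, 0], [5112, 11664, 0, 0, 0, 0, 0, 0, 0, 0], [0, 0, 0, 0, 0,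
  0, 0, 0, 0, 0], [0, 0, 0, 0, 0, 0, 0, 0, 0, 0], [0, 0, 0, 0, 0, 0, 0, 0, 0, 0], [0, 0, 0, 0, 0,
  0, 0, 0, 0, 0], [0, 0, 0, 0, 0, 0, 0, 0, 0, 0], [0, 0, 0, 0, 0, 0, 0, 0, 0, 0], [0, 0, 0, 0, 0,
  0, 0, 0, 0, 0], [0, 0, 0, 0, 0, 0, 0, 0, 0, 0]]

lemma krcBL : chkJ 7 7 1 2 LBL kc8 rhBL 18 krBL = true := by
  decide +kernel

theorem kposBL {a b a' b' : ℝ} (hK : InK root a b) (hW : InK root a' b') :
    0 ≤ rdot (KV kc8 a b) (krBL.map fun c => zd c (KV kc8 a' b')) :=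
  T8_100_110_111.pos2 T8_100_110_111 (C := krBL) (by decide +kernel) hK hW

lemma frBL (a b : ℝ) : FR 3000 FBL kc8 a b = (-1) * fe 1 a b := by
  simp only [FR, FBL, zd, KV, kc8, List.map_cons, List.map_nil, fe, Matrix.cons_val]
  push_cast
  ring

theorem majBL : Maj 0 (3 / 2) (fun a b => (-1) * fe 1 a b) (LR 3000 LBL) := by
  intro v hv h1 Z hZ0 hZ1
  have hK := in_root hv h1
  show Z * ((-1) * fe 1 (E2 v) (E3 v)) ≤ _
  rw [← frBL]
  rcases le_total Z (1 / 2) with hb0 | hb0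
  · exact chkM_spec (by norm_num) (by norm_num) mjcBL_0 (by push_cast; linarith)
      (by push_cast; linarith) (mjpBL_0 hK)
  rcases le_total Z (3 / 4) with hb1 | hb1
  · exact chkM_spec (by norm_num) (by norm_num) mjcBL_1 (by push_cast; linarith)
      (by push_cast; linarith) (mjpBL_1 hK)
  rcases le_total Z 1 with hb2 | hb2
  · exact chkM_spec (by norm_num) (by norm_num) mjcBL_2 (by push_cast; linarith)
      (by push_cast; linarith) (mjpBL_2 hK)
  exact chkM_spec (by norm_num) (by norm_num) mjcBL_3 (by push_cast; linarith)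
    (by push_cast; linarith) (mjpBL_3 hK)

/-- the matrix of the inequality -/
noncomputable def matBL : Fin 4 → Fin 4 → ℝ :=
  ![![0, -1, 0, 0],
    ![-1, 216 / 125, 0, 0],
    ![0, 0, 0, 0],
    ![0, 0, 0, 0]]

theorem bilBL : BilIneq (-1) 1 matBL := by
  intro p r hp hr hp1 hr1
  have hv : ∀ i, 0 ≤ chan (-(1 / 2)) r i := chan_nn3 (by norm_num) (by norm_num) hr
  have hv1 : sg (chan (-(1 / 2)) r) = 1 := by rw [sg_chan (by norm_num)]; exact hr1
  have h1 := SS_le_Ks' majBL hv hp hv1 hp1 (msg_range hp hr hp1 hr1)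
  have h2 := chkJ_spec (M := 3000) (by norm_num) (by norm_num) (by norm_num) krcBL
    (kposBL (in_root hp hp1) (in_root hr hr1)) (c := 1 / 2) (by norm_num)
  have eE2 := E2_chan (τ := -(1 / 2)) hr1
  have eE3 := E3_chan (τ := -(1 / 2)) hr1
  have f2 : (1 : ℝ) / 3 - (1 / 2) ^ 2 * (1 / 3 - E2 r) = E2 (chan (-(1 / 2)) r) := by
    rw [eE2]; ring
  have f3 : ((1 + (1 : ℝ) / 2) / 3) ^ 3 - ((1 + 1 / 2) / 3) ^ 2 * (1 / 2) +
      (1 + 1 / 2) / 3 * (1 / 2) ^ 2 * E2 r - (1 / 2) ^ 3 * E3 r = E3 (chan (-(1 / 2)) r) := by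
    rw [eE3]; ring
  rw [f2, f3] at h2
  have h3 : SS (Pf fun a b => (-1) * fe 1 a b) (chan (-(1 / 2)) r) p =
      (-1) * SS (Fe 1) (chan (-(1 / 2)) r) p := by
    rw [← SS_mul]
    congr 1
    funext v
    unfold Fe Pf
    ring
  rw [h3] at h1
  have h4 : (-1 : ℝ) * (1 / 2 * SS (Fe 1) (chan (-(1 / 2)) r) p) ≤
      rdot (KV kc8 (E2 p) (E3 p)) (rhBL.map fun c => zd c (KV kc8 (E2 r) (E3 r))) / (3000 : ℕ) := by
    linarith
  refine h4.trans (le_of_eq ?_)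
  rw [eE2, eE3]
  simp only [Fin.sum_univ_four, matBL, fe, rhBL, rdot, zd, KV, kc8, List.map_cons, List.map_nil,
    Matrix.cons_val]
  push_cast
  ring

end Vale.Agent.P154N
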