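import Vale.Agent.P154.N3BRange
import Vale.Agent.P154.N3ReflJ
import Vale.Agent.P154.N3K8_100_110_111

/-! P154, three states: bilinear inequality (M) at eigenvalue -1/2 -/

namespace Vale.Agent.P154N

open Vale.Agent.P154.G Vale.Agent.P154.Q4L

/-- the functional -/
def FBM : List ℤ := [
  -60000, 270000, 0, 0, 0, -810000, 0, 0, 0, 0]

/-- the majorant -/
def LBM : List (ℤ × ℕ × ℕ × ℕ) := [
  (158, 0, 0, 0), (65286, 1, 0, 0), (-633369, 1, 1, 0), (279718, 0, 0, 1), (-514950, 2, 0, 0),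
  (6862380, 2, 1, 0), (-6514131, 1, 0, 1), (-10606950, 2, 2, 0), (13187208, 1, 1, 1), (-3470952,
  0, 0, 2), (1140684, 3, 0, 0), (-13289136, 3, 1, 0), (12885897, 2, 0, 1), (28863036, 3, 2, 0),
  (-28449282, 2, 1, 1), (4938006, 1, 0, 2), (-12732606, 3, 3, 0), (6414210, 2, 2, 1), (-1335333,
  4, 0, 0), (12550824, 4, 1, 0), (-9658242, 3, 0, 1), (-18003462, 4, 2, 0), (10399992, 3, 1, 1),
  (7879692, 4, 3, 0), (872187, 5, 0, 0), (-5873646, 5, 1, 0), (2540763, 4, 0, 1), (4251918, 5, 2,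
  0), (-301395, 6, 0, 0), (1095744, 6, 1, 0), (43047, 7, 0, 0)]

/-- coefficients -/
def mjBM_0_0 : List ℤ := [
  948, 0, 0, 0, 0, 0, 0, 0, 0, 0]

/-- coefficients -/
def mjBM_0_1 : List ℤ := [
  201948, -270000, 0, 0, 0, 810000, 0, 0, 0, 0]

/-- coefficients -/
def mjBM_0_2 : List ℤ := [
  931752, -1906938, 0, 0, 0, 8100000, 0, 0, 0, 0]

/-- coefficients -/
def mjBM_0_3 : List ℤ := [
  1616676, -4167228, 0, 0, 0, 19525272, 0, 0, 0, 0]

/-- coefficients -/
def mjBM_0_4 : List ℤ := [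
  1241574, -3696390, 23040, 0, 0, 17937642, 0, 0, 0, 0]

/-- coefficients -/
def mjBM_0_5 : List ℤ := [
  355722, -1166286, 24594, 0, 0, 5698800, 42, 0, 0, 0]

/-- coefficients -/
def mjBM_0 : List (List ℤ) := [
  mjBM_0_0, mjBM_0_1, mjBM_0_2, mjBM_0_3, mjBM_0_4, mjBM_0_5]

lemma mjcBM_0 : chkM 7 1 LBM FBM kc8 1 0 2 1 mjBM_0 = true := by decide +kernel

theorem mjpBM_0 {a b : ℝ} (hK : InK root a b) : ∀ q ∈ mjBM_0, 0 ≤ zd q (KV kc8 a b) :=
  T8_100_110_111.posAll (by decide +kernel) hK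

/-- coefficients -/
def mjBM_1_0 : List ℤ := [
  177861, -583143, 12297, 0, 0, 2849400, 21, 0, 0, 0]

/-- coefficients -/
def mjBM_1_1 : List ℤ := [
  1426341, -5050755, 161415, 0, 0, 24803358, 315, 0, 0, 0]

/-- coefficients -/
def mjBM_1_2 : List ℤ := [
  4341954, -16460646, 830250, 0, 0, 80244840, 1890, 0, 0, 0]

/-- coefficients -/
def mjBM_1_3 : List ℤ := [
  6350634, -25225902, 2076030, 0, 0, 119760228, 5670, 0, 0, 0]

/-- coefficients -/
def mjBM_1_4 : List ℤ := [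
  4497753, -18386595, 2491965, 0, 0, 83186352, 8505, 0, 0, 0]

/-- coefficients -/
def mjBM_1_5 : List ℤ := [
  1241745, -5156703, 1121931, 0, 0, 21659886, 5103, 0, 0, 0]

/-- coefficients -/
def mjBM_1 : List (List ℤ) := [
  mjBM_1_0, mjBM_1_1, mjBM_1_2, mjBM_1_3, mjBM_1_4, mjBM_1_5]

lemma mjcBM_1 : chkM 7 16 LBM FBM kc8 2 1 4 3 mjBM_1 = true := by decide +kernel

theorem mjpBM_1 {a b : ℝ} (hK : InK root a b) : ∀ q ∈ mjBM_1, 0 ≤ zd q (KV kc8 a b) :=
  T8_100_110_111.posAll (by decide +kernel) hK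

/-- coefficients -/
def mjBM_2_0 : List ℤ := [
  2483490, -10313406, 2243862, 0, 0, 43319772, 10206, 0, 0, 0]

/-- coefficients -/
def mjBM_2_1 : List ℤ := [
  1710972, -7396920, 3117690, 0, 0, 25113078, 17010, 0, 0, 0]

/-- coefficients -/
def mjBM_2_2 : List ℤ := [
  388536, -1623276, 1663740, 0, 0, 1806840, 11340, 0, 0, 0]

/-- coefficients -/
def mjBM_2_3 : List ℤ := [
  35220, -116130, 416340, 0, 0, -870852, 3780, 0, 0, 0]

/-- coefficients -/
def mjBM_2_4 : List ℤ := [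
  1506, -5538, 46350, 0, 0, -106452, 630, 0, 0, 0]

/-- coefficients -/
def mjBM_2_5 : List ℤ := [
  72, -186, 1554, 0, 0, -3570, 42, 0, 0, 0]

/-- coefficients -/
def mjBM_2 : List (List ℤ) := [
  mjBM_2_0, mjBM_2_1, mjBM_2_2, mjBM_2_3, mjBM_2_4, mjBM_2_5]

lemma mjcBM_2 : chkM 7 1 LBM FBM kc8 4 3 1 1 mjBM_2 = true := by decide +kernel

theorem mjpBM_2 {a b : ℝ} (hK : InK root a b) : ∀ q ∈ mjBM_2, 0 ≤ zd q (KV kc8 a b) :=
  T8_100_110_111.posAll (by decide +kernel) hK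

/-- coefficients -/
def mjBM_3_0 : List ℤ := [
  72, -186, 1554, 0, 0, -3570, 42, 0, 0, 0]

/-- coefficients -/
def mjBM_3_1 : List ℤ := [
  654, -42, 270, 0, 0, -648, 630, 0, 0, 0]

/-- coefficients -/
def mjBM_3_2 : List ℤ := [
  24996, -50178, -136620, 0, 0, 398796, 3780, 0, 0, 0]

/-- coefficients -/
def mjBM_3_3 : List ℤ := [
  75648, 327384, -824580, 0, 0, -2199744, 11340, 0, 0, 0]

/-- coefficients -/
def mjBM_3_4 : List ℤ := [
  17676, 3119904, -1858950, 0, 0, -21780090, 17010, 0, 0, 0]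

/-- coefficients -/
def mjBM_3_5 : List ℤ := [
  10662, 5016654, -1488618, 0, 0, -35590104, 10206, 0, 0, 0]

/-- coefficients -/
def mjBM_3 : List (List ℤ) := [
  mjBM_3_0, mjBM_3_1, mjBM_3_2, mjBM_3_3, mjBM_3_4, mjBM_3_5]

lemma mjcBM_3 : chkM 7 1 LBM FBM kc8 1 1 2 3 mjBM_3 = true := by decide +kernel

theorem mjpBM_3 {a b : ℝ} (hK : InK root a b) : ∀ q ∈ mjBM_3, 0 ≤ zd q (KV kc8 a b) :=
  T8_100_110_111.posAll (by decide +kernel) hK

/-- coefficients -/
def krBM_0 : List ℤ := [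
  1418076, -5780894, 9529992, -16286022, 0, 3000402, -20967228, 48815298, 21384, 0]

/-- coefficients -/
def krBM_1 : List ℤ := [
  -8644456, 42975282, -129099258, 232944822, 0, -2960154, 231840252, -652350510, -23241978, 0]

/-- coefficients -/
def krBM_2 : List ℤ := [
  20367846, -148617639, 584218656, -961119675, 0, 64812825, -1189752246, 2753239329, 592552584, 0]

/-- coefficients -/
def krBM_3 : List ℤ := [
  -16286022, 215027865, -928041138, 1207728549, 0, -257003523, 2498255622, -3763875843,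
  -2070177750, 0]

/-- coefficients -/
def krBM_4 : List ℤ := [
  0, 0, 0, 0, 0, 0, 0, 0, 0, 0]

/-- coefficients -/
def krBM_5 : List ℤ := [
  -1237860, 107383176, -327514158, -144994212, 0, -396761220, 1853637480, 442341648, -2045430630,
  0]

/-- coefficients -/
def krBM_6 : List ℤ := [
  -47271168, -173350638, 1030736340, 956283570, 0, 1468917342, -7731361332, -3899109474,
  8894398752, 0]

/-- coefficients -/
def krBM_7 : List ℤ := [
  128695230, -829864197, 1784000538, -1227726153, 0, 236506311, -4367838006, 8755477839,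
  3141177894, 0]

/-- coefficients -/
def krBM_8 : List ℤ := [
  -70470486, 1153957185, -3626591292, -499588803, 0, -2995941411, 20502512154, -1570588947,
  -20716243776, 0]

/-- coefficients -/
def krBM_9 : List ℤ := [
  0, 0, 0, 0, 0, 0, 0, 0, 0, 0]

/-- the kernel -/
def krBM : List (List ℤ) := [
  krBM_0, krBM_1, krBM_2, krBM_3, krBM_4, krBM_5, krBM_6, krBM_7, krBM_8, krBM_9]

/-- the right-hand side -/
def rhBM : List (List ℤ) := [
  [40080, -311490, 0, 0, 0, 101250, 0, 0, 0, 0], [-364770, 1904310, 0, 0, 0, 0, 0, 0, 0, 0],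
  [758160, -2274480, 0, 0, 0, 0, 0, 0, 0, 0], [0, 0, 0, 0, 0, 0, 0, 0, 0, 0], [0, 0, 0, 0, 0, 0,
  0, 0, 0, 0], [128790, -2816370, 0, 0, 0, 0, 0, 0, 0, 0], [0, 0, 0, 0, 0, 0, 0, 0, 0, 0], [0, 0,
  0, 0, 0, 0, 0, 0, 0, 0], [0, 0, 0, 0, 0, 0, 0, 0, 0, 0], [0, 0, 0, 0, 0, 0, 0, 0, 0, 0]]

lemma krcBM : chkJ 7 7 1 2 LBM kc8 rhBM 54 krBM = true := by
  decide +kernel

theorem kposBM {a b a' b' : ℝ} (hK : InK root a b) (hW : InK root a' b') :
    0 ≤ rdot (KV kc8 a b) (krBM.map fun c => zd c (KV kc8 a' b')) :=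
  T8_100_110_111.pos2 T8_100_110_111 (C := krBM) (by decide +kernel) hK hW

lemma frBM (a b : ℝ) : FR 60000 FBM kc8 a b = (-1) * fe 3 a b := by
  simp only [FR, FBM, zd, KV, kc8, List.map_cons, List.map_nil, fe, Matrix.cons_val]
  push_cast
  ring

theorem majBM : Maj 0 (3 / 2) (fun a b => (-1) * fe 3 a b) (LR 60000 LBM) := by
  intro v hv h1 Z hZ0 hZ1
  have hK := in_root hv h1
  show Z * ((-1) * fe 3 (E2 v) (E3 v)) ≤ _
  rw [← frBM]
  rcases le_total Z (1 / 2) with hb0 | hb0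
  · exact chkM_spec (by norm_num) (by norm_num) mjcBM_0 (by push_cast; linarith)
      (by push_cast; linarith) (mjpBM_0 hK)
  rcases le_total Z (3 / 4) with hb1 | hb1
  · exact chkM_spec (by norm_num) (by norm_num) mjcBM_1 (by push_cast; linarith)
      (by push_cast; linarith) (mjpBM_1 hK)
  rcases le_total Z 1 with hb2 | hb2
  · exact chkM_spec (by norm_num) (by norm_num) mjcBM_2 (by push_cast; linarith)
      (by push_cast; linarith) (mjpBM_2 hK)
  exact chkM_spec (by norm_num) (by norm_num) mjcBM_3 (by push_cast; linarith)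
    (by push_cast; linarith) (mjpBM_3 hK)

/-- the matrix of the inequality -/
noncomputable def matBM : Fin 4 → Fin 4 → ℝ :=
  ![![0, 0, 0, -1],
    ![0, -102 / 25, 0, 0],
    ![0, 702 / 125, 0, 0],
    ![-1, 1159 / 250, 0, 0]]

theorem bilBM : BilIneq (-1) 3 matBM := by
  intro p r hp hr hp1 hr1
  have hv : ∀ i, 0 ≤ chan (-(1 / 2)) r i := chan_nn3 (by norm_num) (by norm_num) hr
  have hv1 : sg (chan (-(1 / 2)) r) = 1 := by rw [sg_chan (by norm_num)]; exact hr1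
  have h1 := SS_le_Ks' majBM hv hp hv1 hp1 (msg_range hp hr hp1 hr1)
  have h2 := chkJ_spec (M := 60000) (by norm_num) (by norm_num) (by norm_num) krcBM
    (kposBM (in_root hp hp1) (in_root hr hr1)) (c := 1 / 2) (by norm_num)
  have eE2 := E2_chan (τ := -(1 / 2)) hr1
  have eE3 := E3_chan (τ := -(1 / 2)) hr1
  have f2 : (1 : ℝ) / 3 - (1 / 2) ^ 2 * (1 / 3 - E2 r) = E2 (chan (-(1 / 2)) r) := by
    rw [eE2]; ring
  have f3 : ((1 + (1 : ℝ) / 2) / 3) ^ 3 - ((1 + 1 / 2) / 3) ^ 2 * (1 / 2) +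
      (1 + 1 / 2) / 3 * (1 / 2) ^ 2 * E2 r - (1 / 2) ^ 3 * E3 r = E3 (chan (-(1 / 2)) r) := by
    rw [eE3]; ring
  rw [f2, f3] at h2
  have h3 : SS (Pf fun a b => (-1) * fe 3 a b) (chan (-(1 / 2)) r) p =
      (-1) * SS (Fe 3) (chan (-(1 / 2)) r) p := by
    rw [← SS_mul]
    congr 1
    funext v
    unfold Fe Pf
    ring
  rw [h3] at h1
  have h4 : (-1 : ℝ) * (1 / 2 * SS (Fe 3) (chan (-(1 / 2)) r) p) ≤
      rdot (KV kc8 (E2 p) (E3 p)) (rhBM.map fun c => zd c (KV kc8 (E2 r) (E3 r))) / (60000 : ℕ) := by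
    linarith
  refine h4.trans (le_of_eq ?_)
  rw [eE2, eE3]
  simp only [Fin.sum_univ_four, matBM, fe, rhBM, rdot, zd, KV, kc8, List.map_cons, List.map_nil,
    Matrix.cons_val]
  push_cast
  ring

end Vale.Agent.P154N
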