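import Vale.Agent.P154.N3BRange
import Vale.Agent.P154.N3ReflJ
import Vale.Agent.P154.N3K8_100_110_111

/-! P154, three states: bilinear inequality (P) at eigenvalue -1/2 -/

namespace Vale.Agent.P154N

open Vale.Agent.P154.G Vale.Agent.P154.Q4L

/-- the functional -/
def FBP : List ℤ := [
  60000, -270000, 0, 0, 0, 810000, 0, 0, 0, 0]

/-- the majorant -/
def LBP : List (ℤ × ℕ × ℕ × ℕ) := [
  (111, 0, 0, 0), (26367, 1, 0, 0), (-358635, 1, 1, 0), (1646725, 0, 0, 1), (20049, 2, 0, 0),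
  (515850, 2, 1, 0), (-10003341, 1, 0, 1), (-59100, 2, 2, 0), (22898340, 1, 1, 1), (-14670294, 0,
  0, 2), (-59382, 3, 0, 0), (343380, 3, 1, 0), (10429017, 2, 0, 1), (-420726, 3, 2, 0),
  (-41784390, 2, 1, 1), (22456758, 1, 0, 2), (-62802, 3, 3, 0), (10887252, 2, 2, 1), (97686, 4,
  0, 0), (-805848, 4, 1, 0), (-5748798, 3, 0, 1), (378900, 4, 2, 0), (13577364, 3, 1, 1),
  (137988, 4, 3, 0), (-89439, 5, 0, 0), (526842, 5, 1, 0), (1282212, 4, 0, 1), (-125292, 5, 2,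
  0), (42570, 6, 0, 0), (-125688, 6, 1, 0), (-8184, 7, 0, 0)]

/-- coefficients -/
def mjBP_0_0 : List ℤ := [
  666, 0, 0, 0, 0, 0, 0, 0, 0, 0]

/-- coefficients -/
def mjBP_0_1 : List ℤ := [
  726, 270000, 0, 0, 0, -810000, 0, 0, 0, 0]

/-- coefficients -/
def mjBP_0_2 : List ℤ := [
  6732, 1902534, 0, 0, 0, -8100000, 0, 0, 0, 0]

/-- coefficients -/
def mjBP_0_3 : List ℤ := [
  18546, 5022414, 0, 0, 0, -23613492, 0, 0, 0, 0]

/-- coefficients -/
def mjBP_0_4 : List ℤ := [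
  15756, 5893026, -414216, 0, 0, -29793126, 0, 0, 0, 0]

/-- coefficients -/
def mjBP_0_5 : List ℤ := [
  4512, 2585556, -554436, 0, 0, -14146164, 1366488, 0, 0, 0]

/-- coefficients -/
def mjBP_0 : List (List ℤ) := [
  mjBP_0_0, mjBP_0_1, mjBP_0_2, mjBP_0_3, mjBP_0_4, mjBP_0_5]

lemma mjcBP_0 : chkM 7 1 LBP FBP kc8 1 0 2 1 mjBP_0 = true := by decide +kernel

theorem mjpBP_0 {a b : ℝ} (hK : InK root a b) : ∀ q ∈ mjBP_0, 0 ≤ zd q (KV kc8 a b) :=
  T8_100_110_111.posAll (by decide +kernel) hK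

/-- coefficients -/
def mjBP_1_0 : List ℤ := [
  1128, 646389, -138609, 0, 0, -3536541, 341622, 0, 0, 0]

/-- coefficients -/
def mjBP_1_1 : List ℤ := [
  9042, 6749322, -1872027, 0, 0, -38151552, 5124330, 0, 0, 0]

/-- coefficients -/
def mjBP_1_2 : List ℤ := [
  25530, 27839268, -9989514, 0, 0, -163143426, 30745980, 0, 0, 0]

/-- coefficients -/
def mjBP_1_3 : List ℤ := [
  32598, 56809986, -26240598, 0, 0, -346773096, 92237940, 0, 0, 0]

/-- coefficients -/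
def mjBP_1_4 : List ℤ := [
  28878, 57418911, -33768981, 0, 0, -367074585, 138356910, 0, 0, 0]

/-- coefficients -/
def mjBP_1_5 : List ℤ := [
  18936, 23004540, -16906239, 0, 0, -154242144, 83014146, 0, 0, 0]

/-- coefficients -/
def mjBP_1 : List (List ℤ) := [
  mjBP_1_0, mjBP_1_1, mjBP_1_2, mjBP_1_3, mjBP_1_4, mjBP_1_5]

lemma mjcBP_1 : chkM 7 8 LBP FBP kc8 2 1 4 3 mjBP_1 = true := by decide +kernel

theorem mjpBP_1 {a b : ℝ} (hK : InK root a b) : ∀ q ∈ mjBP_1, 0 ≤ zd q (KV kc8 a b) :=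
  T8_100_110_111.posAll (by decide +kernel) hK

/-- coefficients -/
def mjBP_2_0 : List ℤ := [
  75744, 92018160, -67624956, 0, 0, -616968576, 332056584, 0, 0, 0]

/-- coefficients -/
def mjBP_2_1 : List ℤ := [
  131604, 115207578, -101524428, 0, 0, -808272270, 553427640, 0, 0, 0]

/-- coefficients -/
def mjBP_2_2 : List ℤ := [
  106446, 57179742, -60227064, 0, 0, -420896196, 368951760, 0, 0, 0]

/-- coefficients -/
def mjBP_2_3 : List ℤ := [
  44178, 14061312, -17590392, 0, 0, -108574896, 122983920, 0, 0, 0]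

/-- coefficients -/
def mjBP_2_4 : List ℤ := [
  8736, 1711950, -2517516, 0, 0, -13774092, 20497320, 0, 0, 0]

/-- coefficients -/
def mjBP_2_5 : List ℤ := [
  630, 82410, -140220, 0, 0, -676530, 1366488, 0, 0, 0]

/-- coefficients -/
def mjBP_2 : List (List ℤ) := [
  mjBP_2_0, mjBP_2_1, mjBP_2_2, mjBP_2_3, mjBP_2_4, mjBP_2_5]

lemma mjcBP_2 : chkM 7 1 LBP FBP kc8 4 3 1 1 mjBP_2 = true := by decide +kernel

theorem mjpBP_2 {a b : ℝ} (hK : InK root a b) : ∀ q ∈ mjBP_2, 0 ≤ zd q (KV kc8 a b) :=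
  T8_100_110_111.posAll (by decide +kernel) hK

/-- coefficients -/
def mjBP_3_0 : List ℤ := [
  630, 82410, -140220, 0, 0, -676530, 1366488, 0, 0, 0]

/-- coefficients -/
def mjBP_3_1 : List ℤ := [
  10164, 760350, -1689084, 0, 0, -6521808, 20497320, 0, 0, 0]

/-- coefficients -/
def mjBP_3_2 : List ℤ := [
  61314, 2642112, -7649208, 0, 0, -21547488, 122983920, 0, 0, 0]

/-- coefficients -/
def mjBP_3_3 : List ℤ := [
  162582, 4148274, -15491736, 0, 0, -19552860, 368951760, 0, 0, 0]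

/-- coefficients -/
def mjBP_3_4 : List ℤ := [
  159972, 2564370, -12053772, 0, 0, 33294402, 553427640, 0, 0, 0]

/-- coefficients -/
def mjBP_3_5 : List ℤ := [
  1296, 132948, -521964, 0, 0, 57946428, 332056584, 0, 0, 0]

/-- coefficients -/
def mjBP_3 : List (List ℤ) := [
  mjBP_3_0, mjBP_3_1, mjBP_3_2, mjBP_3_3, mjBP_3_4, mjBP_3_5]

lemma mjcBP_3 : chkM 7 1 LBP FBP kc8 1 1 2 3 mjBP_3 = true := by decide +kernel

theorem mjpBP_3 {a b : ℝ} (hK : InK root a b) : ∀ q ∈ mjBP_3, 0 ≤ zd q (KV kc8 a b) :=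
  T8_100_110_111.posAll (by decide +kernel) hK

/-- coefficients -/
def krBP_0 : List ℤ := [
  80, 83444, 1728, -42768, 0, -1142604, 2562948, -4640328, 2384316, 0]

/-- coefficients -/
def krBP_1 : List ℤ := [
  -298, 1519738, -2633571, -1692252, 0, -1575936, -21755952, 50298570, -22610907, 0]

/-- coefficients -/
def krBP_2 : List ℤ := [
  11394, -4544325, 10990314, -2246535, 0, 3995703, 64371996, -161657451, 64146168, 0]

/-- coefficients -/
def krBP_3 : List ℤ := [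
  -42768, -549180, -7474194, 35986356, 0, -210924, -63167364, 141603876, -52203690, 0]

/-- coefficients -/
def krBP_4 : List ℤ := [
  0, 0, 0, 0, 0, 0, 0, 0, 0, 0]

/-- coefficients -/
def krBP_5 : List ℤ := [
  -11106, -52359876, 227489283, -211263714, 0, 85627710, -331581600, 172642752, 163392471, 0]

/-- coefficients -/
def krBP_6 : List ℤ := [
  2440476, 219227553, -1186764372, 1385640675, 0, -266371497, 1688251572, -1160249427,
  -857271924, 0]

/-- coefficients -/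
def krBP_7 : List ℤ := [
  -5540400, -213778764, 1539798660, -2503041912, 0, 341120484, -1990995228, 2219834160,
  894832920, 0]

/-- coefficients -/
def krBP_8 : List ℤ := [
  -4797306, 34796142, -130441428, 395212770, 0, -40012380, -358880868, -447416460, 589295898, 0]

/-- coefficients -/
def krBP_9 : List ℤ := [
  0, 0, 0, 0, 0, 0, 0, 0, 0, 0]

/-- the kernel -/
def krBP : List (List ℤ) := [
  krBP_0, krBP_1, krBP_2, krBP_3, krBP_4, krBP_5, krBP_6, krBP_7, krBP_8, krBP_9]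

/-- the right-hand side -/
def rhBP : List (List ℤ) := [
  [60240, 10530, 0, 0, 0, -101250, 0, 0, 0, 0], [-135900, -402300, 0, 0, 0, 0, 0, 0, 0, 0], [0,
  0, 0, 0, 0, 0, 0, 0, 0, 0], [0, 0, 0, 0, 0, 0, 0, 0, 0, 0], [0, 0, 0, 0, 0, 0, 0, 0, 0, 0],
  [-605880, 4247640, 0, 0, 0, 0, 0, 0, 0, 0], [0, 0, 0, 0, 0, 0, 0, 0, 0, 0], [0, 0, 0, 0, 0, 0,
  0, 0, 0, 0], [0, 0, 0, 0, 0, 0, 0, 0, 0, 0], [0, 0, 0, 0, 0, 0, 0, 0, 0, 0]]

lemma krcBP : chkJ 7 7 1 2 LBP kc8 rhBP 108 krBP = true := by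
  decide +kernel

theorem kposBP {a b a' b' : ℝ} (hK : InK root a b) (hW : InK root a' b') :
    0 ≤ rdot (KV kc8 a b) (krBP.map fun c => zd c (KV kc8 a' b')) :=
  T8_100_110_111.pos2 T8_100_110_111 (C := krBP) (by decide +kernel) hK hW

lemma frBP (a b : ℝ) : FR 60000 FBP kc8 a b = 1 * fe 3 a b := by
  simp only [FR, FBP, zd, KV, kc8, List.map_cons, List.map_nil, fe, Matrix.cons_val]
  push_cast
  ring

theorem majBP : Maj 0 (3 / 2) (fun a b => 1 * fe 3 a b) (LR 60000 LBP) := by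
  intro v hv h1 Z hZ0 hZ1
  have hK := in_root hv h1
  show Z * (1 * fe 3 (E2 v) (E3 v)) ≤ _
  rw [← frBP]
  rcases le_total Z (1 / 2) with hb0 | hb0
  · exact chkM_spec (by norm_num) (by norm_num) mjcBP_0 (by push_cast; linarith)
      (by push_cast; linarith) (mjpBP_0 hK)
  rcases le_total Z (3 / 4) with hb1 | hb1
  · exact chkM_spec (by norm_num) (by norm_num) mjcBP_1 (by push_cast; linarith)
      (by push_cast; linarith) (mjpBP_1 hK)
  rcases le_total Z 1 with hb2 | hb2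
  · exact chkM_spec (by norm_num) (by norm_num) mjcBP_2 (by push_cast; linarith)
      (by push_cast; linarith) (mjpBP_2 hK)
  exact chkM_spec (by norm_num) (by norm_num) mjcBP_3 (by push_cast; linarith)
    (by push_cast; linarith) (mjpBP_3 hK)

/-- the matrix of the inequality -/
noncomputable def matBP : Fin 4 → Fin 4 → ℝ :=
  ![![0, 0, 0, 1],
    ![0, 1877 / 250, 0, 0],
    ![0, 0, 0, 0],
    ![1, -874 / 125, 0, 0]]

theorem bilBP : BilIneq (1) 3 matBP := by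
  intro p r hp hr hp1 hr1
  have hv : ∀ i, 0 ≤ chan (-(1 / 2)) r i := chan_nn3 (by norm_num) (by norm_num) hr
  have hv1 : sg (chan (-(1 / 2)) r) = 1 := by rw [sg_chan (by norm_num)]; exact hr1
  have h1 := SS_le_Ks' majBP hv hp hv1 hp1 (msg_range hp hr hp1 hr1)
  have h2 := chkJ_spec (M := 60000) (by norm_num) (by norm_num) (by norm_num) krcBP
    (kposBP (in_root hp hp1) (in_root hr hr1)) (c := 1 / 2) (by norm_num)
  have eE2 := E2_chan (τ := -(1 / 2)) hr1
  have eE3 := E3_chan (τ := -(1 / 2)) hr1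
  have f2 : (1 : ℝ) / 3 - (1 / 2) ^ 2 * (1 / 3 - E2 r) = E2 (chan (-(1 / 2)) r) := by
    rw [eE2]; ring
  have f3 : ((1 + (1 : ℝ) / 2) / 3) ^ 3 - ((1 + 1 / 2) / 3) ^ 2 * (1 / 2) +
      (1 + 1 / 2) / 3 * (1 / 2) ^ 2 * E2 r - (1 / 2) ^ 3 * E3 r = E3 (chan (-(1 / 2)) r) := by
    rw [eE3]; ring
  rw [f2, f3] at h2
  have h3 : SS (Pf fun a b => 1 * fe 3 a b) (chan (-(1 / 2)) r) p =
      1 * SS (Fe 3) (chan (-(1 / 2)) r) p := by
    rw [← SS_mul]
    congr 1
    funext v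
    unfold Fe Pf
    ring
  rw [h3] at h1
  have h4 : (1 : ℝ) * (1 / 2 * SS (Fe 3) (chan (-(1 / 2)) r) p) ≤
      rdot (KV kc8 (E2 p) (E3 p)) (rhBP.map fun c => zd c (KV kc8 (E2 r) (E3 r))) / (60000 : ℕ) := by
    linarith
  refine h4.trans (le_of_eq ?_)
  rw [eE2, eE3]
  simp only [Fin.sum_univ_four, matBP, fe, rhBP, rdot, zd, KV, kc8, List.map_cons, List.map_nil,
    Matrix.cons_val]
  push_cast
  ring

end Vale.Agent.P154N
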