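import Vale.Agent.P154.N3BRange
import Vale.Agent.P154.N3ReflJ
import Vale.Agent.P154.N3K8_100_110_111

/-! P154, three states: bilinear inequality (R) at eigenvalue -1/2 -/

namespace Vale.Agent.P154N

open Vale.Agent.P154.G Vale.Agent.P154.Q4L

/-- the functional -/
def FBR : List ℤ := [
  60000, -180000, 0, 0, 0, 0, 0, 0, 0, 0]

/-- the majorant -/
def LBR : List (ℤ × ℕ × ℕ × ℕ) := [
  (5059, 0, 0, 0), (-85767, 1, 0, 0), (228933, 1, 1, 0), (-88806, 0, 0, 1), (374364, 2, 0, 0),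
  (-1499334, 2, 1, 0), (536973, 1, 0, 1), (1035558, 2, 2, 0), (259176, 1, 1, 1), (-519522, 0, 0,
  2), (-664794, 3, 0, 0), (2436828, 3, 1, 0), (-934491, 2, 0, 1), (-1987212, 3, 2, 0), (-453462,
  2, 1, 1), (631464, 1, 0, 2), (445662, 3, 3, 0), (217950, 2, 2, 1), (699930, 4, 0, 0),
  (-2121276, 4, 1, 0), (719868, 3, 0, 1), (1095570, 4, 2, 0), (48, 3, 1, 1), (-191502, 4, 3, 0),
  (-436839, 5, 0, 0), (949122, 5, 1, 0), (-194787, 4, 0, 1), (-248790, 5, 2, 0), (149607, 6, 0,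
  0), (-171672, 6, 1, 0), (-21678, 7, 0, 0)]

/-- coefficients -/
def mjBR_0_0 : List ℤ := [
  30354, 0, 0, 0, 0, 0, 0, 0, 0, 0]

/-- coefficients -/
def mjBR_0_1 : List ℤ := [
  132714, 180000, 0, 0, 0, 0, 0, 0, 0, 0]

/-- coefficients -/
def mjBR_0_2 : List ℤ := [
  224274, 760410, 0, 0, 0, 0, 0, 0, 0, 0]

/-- coefficients -/
def mjBR_0_3 : List ℤ := [
  183510, 1192710, 0, 0, 0, -23598, 0, 0, 0, 0]

/-- coefficients -/
def mjBR_0_4 : List ℤ := [
  73782, 823398, -2820, 0, 0, -47262, 0, 0, 0, 0]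

/-- coefficients -/
def mjBR_0_5 : List ℤ := [
  12264, 211056, -3054, 0, 0, -23946, 5538, 0, 0, 0]

/-- coefficients -/
def mjBR_0 : List (List ℤ) := [
  mjBR_0_0, mjBR_0_1, mjBR_0_2, mjBR_0_3, mjBR_0_4, mjBR_0_5]

lemma mjcBR_0 : chkM 7 1 LBR FBR kc8 1 0 2 1 mjBR_0 = true := by decide +kernel

theorem mjpBR_0 {a b : ℝ} (hK : InK root a b) : ∀ q ∈ mjBR_0, 0 ≤ zd q (KV kc8 a b) :=
  T8_100_110_111.posAll (by decide +kernel) hK

/-- coefficients -/
def mjBR_1_0 : List ℤ := [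
  6132, 105528, -1527, 0, 0, -11973, 2769, 0, 0, 0]

/-- coefficients -/
def mjBR_1_1 : List ℤ := [
  18198, 759522, -20085, 0, 0, -132333, 41535, 0, 0, 0]

/-- coefficients -/
def mjBR_1_2 : List ℤ := [
  33516, 2002164, -103590, 0, 0, -557622, 249210, 0, 0, 0]

/-- coefficients -/
def mjBR_1_3 : List ℤ := [
  77496, 2456208, -260010, 0, 0, -1105326, 747630, 0, 0, 0]

/-- coefficients -/
def mjBR_1_4 : List ℤ := [
  103680, 1408356, -313875, 0, 0, -1019061, 1121445, 0, 0, 0]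

/-- coefficients -/
def mjBR_1_5 : List ℤ := [
  48882, 299646, -142641, 0, 0, -355509, 672867, 0, 0, 0]

/-- coefficients -/
def mjBR_1 : List (List ℤ) := [
  mjBR_1_0, mjBR_1_1, mjBR_1_2, mjBR_1_3, mjBR_1_4, mjBR_1_5]

lemma mjcBR_1 : chkM 7 16 LBR FBR kc8 2 1 4 3 mjBR_1 = true := by decide +kernel

theorem mjpBR_1 {a b : ℝ} (hK : InK root a b) : ∀ q ∈ mjBR_1, 0 ≤ zd q (KV kc8 a b) :=
  T8_100_110_111.posAll (by decide +kernel) hK

/-- coefficients -/
def mjBR_2_0 : List ℤ := [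
  97764, 599292, -285282, 0, 0, -711018, 1345734, 0, 0, 0]

/-- coefficients -/
def mjBR_2_1 : List ℤ := [
  140730, 89874, -399330, 0, 0, -758484, 2242890, 0, 0, 0]

/-- coefficients -/
def mjBR_2_2 : List ℤ := [
  75798, -90378, -215460, 0, 0, -292086, 1495260, 0, 0, 0]

/-- coefficients -/
def mjBR_2_3 : List ℤ := [
  16428, -21804, -54900, 0, 0, -49770, 498420, 0, 0, 0]

/-- coefficients -/
def mjBR_2_4 : List ℤ := [
  1668, -1422, -6330, 0, 0, -4296, 83070, 0, 0, 0]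

/-- coefficients -/
def mjBR_2_5 : List ℤ := [
  78, -42, -234, 0, 0, -282, 5538, 0, 0, 0]

/-- coefficients -/
def mjBR_2 : List (List ℤ) := [
  mjBR_2_0, mjBR_2_1, mjBR_2_2, mjBR_2_3, mjBR_2_4, mjBR_2_5]

lemma mjcBR_2 : chkM 7 1 LBR FBR kc8 4 3 1 1 mjBR_2 = true := by decide +kernel

theorem mjpBR_2 {a b : ℝ} (hK : InK root a b) : ∀ q ∈ mjBR_2, 0 ≤ zd q (KV kc8 a b) :=
  T8_100_110_111.posAll (by decide +kernel) hK

/-- coefficients -/
def mjBR_3_0 : List ℤ := [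
  78, -42, -234, 0, 0, -282, 5538, 0, 0, 0]

/-- coefficients -/
def mjBR_3_1 : List ℤ := [
  672, 162, -690, 0, 0, -4164, 83070, 0, 0, 0]

/-- coefficients -/
def mjBR_3_2 : List ℤ := [
  4476, -2796, 12780, 0, 0, -48186, 498420, 0, 0, 0]

/-- coefficients -/
def mjBR_3_3 : List ℤ := [
  28098, -85662, 89100, 0, 0, -284958, 1495260, 0, 0, 0]

/-- coefficients -/
def mjBR_3_4 : List ℤ := [
  69666, -223974, 209790, 0, 0, -744228, 2242890, 0, 0, 0]

/-- coefficients -/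
def mjBR_3_5 : List ℤ := [
  11136, 216, 171558, 0, 0, -700326, 1345734, 0, 0, 0]

/-- coefficients -/
def mjBR_3 : List (List ℤ) := [
  mjBR_3_0, mjBR_3_1, mjBR_3_2, mjBR_3_3, mjBR_3_4, mjBR_3_5]

lemma mjcBR_3 : chkM 7 1 LBR FBR kc8 1 1 2 3 mjBR_3 = true := by decide +kernel

theorem mjpBR_3 {a b : ℝ} (hK : InK root a b) : ∀ q ∈ mjBR_3, 0 ≤ zd q (KV kc8 a b) :=
  T8_100_110_111.posAll (by decide +kernel) hK

/-- coefficients -/
def krBR_0 : List ℤ := [
  803584, -695148, -15532380, 23196780, 0, 2154060, 41769432, -73748556, 2079108, 0]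

/-- coefficients -/
def krBR_1 : List ℤ := [
  -3114372, -1263240, 90834750, -156615444, 0, 10943100, -304184160, 662246928, -96200298, 0]

/-- coefficients -/
def krBR_2 : List ℤ := [
  -6128082, 49081329, -149126076, 228985461, 0, -140705127, 809426682, -1853198919, 511008588, 0]

/-- coefficients -/
def krBR_3 : List ℤ := [
  23196780, -131650110, 138311712, 123666102, 0, 223827786, -1061307360, 1541594430, -578076588,
  0]

/-- coefficients -/
def krBR_4 : List ℤ := [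
  0, 0, 0, 0, 0, 0, 0, 0, 0, 0]

/-- coefficients -/
def krBR_5 : List ℤ := [
  15821352, -88251390, 70789194, 172351638, 0, 79328214, -119453292, -670211982, 467757018, 0]

/-- coefficients -/
def krBR_6 : List ℤ := [
  -46322118, 351362043, -674698086, -355872285, 0, 16874163, 702845262, 3006196983, -3152856474,
  0]

/-- coefficients -/
def krBR_7 : List ℤ := [
  -9684036, 14645610, 400512600, -976861458, 0, -804931182, 2538891216, -2106327402, 2636620956,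
  0]

/-- coefficients -/
def krBR_8 : List ℤ := [
  59815908, -430712154, 554493438, 740233890, 0, 1245346326, -4158469692, -1318310478,
  3913780842, 0]

/-- coefficients -/
def krBR_9 : List ℤ := [
  0, 0, 0, 0, 0, 0, 0, 0, 0, 0]

/-- the kernel -/
def krBR : List (List ℤ) := [
  krBR_0, krBR_1, krBR_2, krBR_3, krBR_4, krBR_5, krBR_6, krBR_7, krBR_8, krBR_9]

/-- the right-hand side -/
def rhBR : List (List ℤ) := [
  [89010, -131580, 70740, 0, 0, 188730, 0, 0, 0, 0], [-278280, 428490, -212220, 0, 0, -566190, 0,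
  0, 0, 0], [291600, -874800, 0, 0, 0, 0, 0, 0, 0, 0], [0, 0, 0, 0, 0, 0, 0, 0, 0, 0], [0, 0, 0,
  0, 0, 0, 0, 0, 0, 0], [-368550, 1105650, 0, 0, 0, 0, 0, 0, 0, 0], [0, 0, 0, 0, 0, 0, 0, 0, 0,
  0], [0, 0, 0, 0, 0, 0, 0, 0, 0, 0], [0, 0, 0, 0, 0, 0, 0, 0, 0, 0], [0, 0, 0, 0, 0, 0, 0, 0, 0,
  0]]

lemma krcBR : chkJ 7 7 1 2 LBR kc8 rhBR 18 krBR = true := by
  decide +kernel

theorem kposBR {a b a' b' : ℝ} (hK : InK root a b) (hW : InK root a' b') :
    0 ≤ rdot (KV kc8 a b) (krBR.map fun c => zd c (KV kc8 a' b')) :=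
  T8_100_110_111.pos2 T8_100_110_111 (C := krBR) (by decide +kernel) hK hW

lemma frBR (a b : ℝ) : FR 60000 FBR kc8 a b = 1 * fe 1 a b := by
  simp only [FR, FBR, zd, KV, kc8, List.map_cons, List.map_nil, fe, Matrix.cons_val]
  push_cast
  ring

theorem majBR : Maj 0 (3 / 2) (fun a b => 1 * fe 1 a b) (LR 60000 LBR) := by
  intro v hv h1 Z hZ0 hZ1
  have hK := in_root hv h1
  show Z * (1 * fe 1 (E2 v) (E3 v)) ≤ _
  rw [← frBR]
  rcases le_total Z (1 / 2) with hb0 | hb0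
  · exact chkM_spec (by norm_num) (by norm_num) mjcBR_0 (by push_cast; linarith)
      (by push_cast; linarith) (mjpBR_0 hK)
  rcases le_total Z (3 / 4) with hb1 | hb1
  · exact chkM_spec (by norm_num) (by norm_num) mjcBR_1 (by push_cast; linarith)
      (by push_cast; linarith) (mjpBR_1 hK)
  rcases le_total Z 1 with hb2 | hb2
  · exact chkM_spec (by norm_num) (by norm_num) mjcBR_2 (by push_cast; linarith)
      (by push_cast; linarith) (mjpBR_2 hK)
  exact chkM_spec (by norm_num) (by norm_num) mjcBR_3 (by push_cast; linarith)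
    (by push_cast; linarith) (mjpBR_3 hK)

/-- the matrix of the inequality -/
noncomputable def matBR : Fin 4 → Fin 4 → ℝ :=
  ![![0, 1, 0, 0],
    ![1, -431 / 500, 262 / 125, -233 / 125],
    ![0, 54 / 25, 0, 0],
    ![0, -91 / 50, 0, 0]]

theorem bilBR : BilIneq (1) 1 matBR := by
  intro p r hp hr hp1 hr1
  have hv : ∀ i, 0 ≤ chan (-(1 / 2)) r i := chan_nn3 (by norm_num) (by norm_num) hr
  have hv1 : sg (chan (-(1 / 2)) r) = 1 := by rw [sg_chan (by norm_num)]; exact hr1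
  have h1 := SS_le_Ks' majBR hv hp hv1 hp1 (msg_range hp hr hp1 hr1)
  have h2 := chkJ_spec (M := 60000) (by norm_num) (by norm_num) (by norm_num) krcBR
    (kposBR (in_root hp hp1) (in_root hr hr1)) (c := 1 / 2) (by norm_num)
  have eE2 := E2_chan (τ := -(1 / 2)) hr1
  have eE3 := E3_chan (τ := -(1 / 2)) hr1
  have f2 : (1 : ℝ) / 3 - (1 / 2) ^ 2 * (1 / 3 - E2 r) = E2 (chan (-(1 / 2)) r) := by
    rw [eE2]; ring
  have f3 : ((1 + (1 : ℝ) / 2) / 3) ^ 3 - ((1 + 1 / 2) / 3) ^ 2 * (1 / 2) +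
      (1 + 1 / 2) / 3 * (1 / 2) ^ 2 * E2 r - (1 / 2) ^ 3 * E3 r = E3 (chan (-(1 / 2)) r) := by
    rw [eE3]; ring
  rw [f2, f3] at h2
  have h3 : SS (Pf fun a b => 1 * fe 1 a b) (chan (-(1 / 2)) r) p =
      1 * SS (Fe 1) (chan (-(1 / 2)) r) p := by
    rw [← SS_mul]
    congr 1
    funext v
    unfold Fe Pf
    ring
  rw [h3] at h1
  have h4 : (1 : ℝ) * (1 / 2 * SS (Fe 1) (chan (-(1 / 2)) r) p) ≤
      rdot (KV kc8 (E2 p) (E3 p)) (rhBR.map fun c => zd c (KV kc8 (E2 r) (E3 r))) / (60000 : ℕ) := by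
    linarith
  refine h4.trans (le_of_eq ?_)
  rw [eE2, eE3]
  simp only [Fin.sum_univ_four, matBR, fe, rhBR, rdot, zd, KV, kc8, List.map_cons, List.map_nil,
    Matrix.cons_val]
  push_cast
  ring

end Vale.Agent.P154N
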