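import Vale.Agent.P154.N3Pos

/-! P154, three states: tables of degree 9 -/

namespace Vale.Agent.P154N

open Vale.Agent.P154.Q4L

/-- exponents of degree 9 -/
def es9 : List (ℕ × ℕ × ℕ) := [
  (9, 0, 0), (8, 1, 0), (8, 0, 1), (7, 2, 0), (7, 1, 1), (7, 0, 2), (6, 3, 0), (6, 2, 1), (6, 1,
  2), (6, 0, 3), (5, 4, 0), (5, 3, 1), (5, 2, 2), (5, 1, 3), (5, 0, 4), (4, 5, 0), (4, 4, 1), (4,
  3, 2), (4, 2, 3), (4, 1, 4), (4, 0, 5), (3, 6, 0), (3, 5, 1), (3, 4, 2), (3, 3, 3), (3, 2, 4),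
  (3, 1, 5), (3, 0, 6), (2, 7, 0), (2, 6, 1), (2, 5, 2), (2, 4, 3), (2, 3, 4), (2, 2, 5), (2, 1,
  6), (2, 0, 7), (1, 8, 0), (1, 7, 1), (1, 6, 2), (1, 5, 3), (1, 4, 4), (1, 3, 5), (1, 2, 6), (1,
  1, 7), (1, 0, 8), (0, 9, 0), (0, 8, 1), (0, 7, 2), (0, 6, 3), (0, 5, 4), (0, 4, 5), (0, 3, 6),
  (0, 2, 7), (0, 1, 8), (0, 0, 9)]

/-- keys of degree 9 -/
def ks9 : List (ℕ × ℕ) := [
  (0, 0), (1, 0), (2, 0), (3, 0), (4, 0), (0, 1), (1, 1), (2, 1), (3, 1), (0, 2), (1, 2), (0, 3)]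

/-- row -/
def r9_0 : List ℕ := [
  1, 18, 27, 144, 432, 324, 672, 3024, 4536, 2268, 2016, 12096, 27216, 27216, 10206, 4032, 30240,
  90720, 136080, 102060, 30618, 5376, 48384, 181440, 362880, 408240, 244944, 61236, 4608, 48384,
  217728, 544320, 816480, 734832, 367416, 78732, 2304, 27648, 145152, 435456, 816480, 979776,
  734832, 314928, 59049, 512, 6912, 41472, 145152, 326592, 489888, 489888, 314928, 118098, 19683]

/-- row -/
def r9_1 : List ℕ := [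
  0, 1, 2, 15, 53, 45, 98, 497, 819, 441, 364, 2408, 5859, 6237, 2457, 840, 6860, 22050, 34965,
  27405, 8505, 1232, 11984, 47880, 100800, 118125, 73143, 18711, 1120, 12656, 60480, 158760,
  247590, 229635, 117369, 25515, 576, 7424, 41328, 130032, 253260, 312984, 239841, 104247, 19683,
  128, 1856, 11808, 43344, 101304, 156492, 159894, 104247, 39366, 6561]

/-- row -/
def r9_2 : List ℕ := [
  0, 0, 0, 1, 4, 4, 12, 67, 122, 72, 61, 438, 1152, 1314, 549, 170, 1495, 5140, 8640, 7110, 2295,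
  280, 2920, 12410, 27540, 33705, 21600, 5670, 272, 3288, 16668, 45990, 74700, 71523, 37422,
  8262, 144, 1984, 11704, 38664, 78345, 99846, 78246, 34506, 6561, 32, 496, 3344, 12888, 31338,
  49923, 52164, 34506, 13122, 2187]

/-- row -/
def r9_3 : List ℕ := [
  0, 0, 0, 0, 0, 0, 1, 6, 12, 8, 9, 69, 195, 240, 108, 33, 309, 1131, 2019, 1755, 594, 63, 699,
  3150, 7373, 9450, 6291, 1701, 66, 849, 4557, 13224, 22410, 22194, 11907, 2673, 36, 528, 3297,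
  11445, 24165, 31806, 25515, 11421, 2187, 8, 132, 942, 3815, 9666, 15903, 17010, 11421, 4374,
  729]

/-- row -/
def r9_4 : List ℕ := [
  0, 0, 0, 0, 0, 0, 0, 0, 0, 0, 1, 8, 24, 32, 16, 6, 59, 228, 432, 400, 144, 14, 164, 780, 1924,
  2590, 1800, 504, 16, 218, 1236, 3772, 6680, 6858, 3780, 864, 9, 140, 924, 3372, 7430, 10116,
  8316, 3780, 729, 2, 35, 264, 1124, 2972, 5058, 5544, 3780, 1458, 243]

/-- row -/
def r9_5 : List ℕ := [
  0, 0, 0, 0, 1, 1, 0, 13, 32, 19, 0, 72, 282, 363, 153, 0, 220, 1180, 2355, 2070, 675, 0, 400,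
  2720, 7360, 9900, 6615, 1755, 0, 432, 3552, 12120, 21960, 22275, 11988, 2673, 0, 256, 2464,
  10128, 23040, 31320, 25434, 11421, 2187, 0, 64, 704, 3376, 9216, 15660, 16956, 11421, 4374, 729]

/-- row -/
def r9_6 : List ℕ := [
  0, 0, 0, 0, 0, 0, 0, 1, 3, 2, 0, 10, 45, 64, 29, 0, 41, 246, 534, 500, 171, 0, 88, 660, 1924,
  2738, 1908, 522, 0, 104, 936, 3422, 6532, 6885, 3807, 864, 0, 64, 672, 2952, 7060, 9954, 8289,
  3780, 729, 0, 16, 192, 984, 2824, 4977, 5526, 3780, 1458, 243]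

/-- row -/
def r9_7 : List ℕ := [
  0, 0, 0, 0, 0, 0, 0, 0, 0, 0, 0, 1, 5, 8, 4, 0, 7, 46, 109, 110, 40, 0, 19, 155, 487, 737, 539,
  153, 0, 25, 244, 956, 1928, 2118, 1206, 279, 0, 16, 182, 855, 2155, 3158, 2700, 1251, 243, 0,
  4, 52, 285, 862, 1579, 1800, 1251, 486, 81]

/-- row -/
def r9_8 : List ℕ := [
  0, 0, 0, 0, 0, 0, 0, 0, 0, 0, 0, 0, 0, 0, 0, 0, 1, 7, 18, 20, 8, 0, 4, 35, 118, 191, 148, 44,
  0, 6, 63, 264, 564, 648, 381, 90, 0, 4, 49, 246, 655, 1000, 879, 414, 81, 0, 1, 14, 82, 262,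
  500, 586, 414, 162, 27]

/-- row -/
def r9_9 : List ℕ := [
  0, 0, 0, 0, 0, 0, 0, 0, 0, 0, 0, 0, 1, 2, 1, 0, 0, 8, 27, 30, 11, 0, 0, 25, 118, 207, 160, 46,
  0, 0, 38, 229, 548, 651, 384, 90, 0, 0, 28, 204, 615, 982, 876, 414, 81, 0, 0, 8, 68, 246, 491,
  584, 414, 162, 27]

/-- row -/
def r9_10 : List ℕ := [
  0, 0, 0, 0, 0, 0, 0, 0, 0, 0, 0, 0, 0, 0, 0, 0, 0, 1, 4, 5, 2, 0, 0, 5, 27, 52, 43, 13, 0, 0,
  9, 61, 158, 198, 121, 29, 0, 0, 7, 57, 185, 310, 285, 137, 27, 0, 0, 2, 19, 74, 155, 190, 137,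
  54, 9]

/-- row -/
def r9_11 : List ℕ := [
  0, 0, 0, 0, 0, 0, 0, 0, 0, 0, 0, 0, 0, 0, 0, 0, 0, 0, 0, 0, 0, 0, 0, 0, 1, 3, 3, 1, 0, 0, 0, 3,
  12, 18, 12, 3, 0, 0, 0, 3, 15, 30, 30, 15, 3, 0, 0, 0, 1, 6, 15, 20, 15, 6, 1]

/-- the table -/
def tab9 : List (List ℕ) := [
  r9_0, r9_1, r9_2, r9_3, r9_4, r9_5, r9_6, r9_7, r9_8, r9_9, r9_10, r9_11]

lemma v9_0 (x y z : ℝ) : ndot r9_0 (mons es9 x y z) =
    (x + 2 * y + 3 * z) ^ 9 * (e2c x y z ^ 0 * e3c x y z ^ 0) := by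
  simp only [r9_0, mons, es9, List.map_cons, List.map_nil, ndot, e2c, e3c]
  push_cast
  ring

lemma v9_1 (x y z : ℝ) : ndot r9_1 (mons es9 x y z) =
    (x + 2 * y + 3 * z) ^ 7 * (e2c x y z ^ 1 * e3c x y z ^ 0) := by
  simp only [r9_1, mons, es9, List.map_cons, List.map_nil, ndot, e2c, e3c]
  push_cast
  ring

lemma v9_2 (x y z : ℝ) : ndot r9_2 (mons es9 x y z) =
    (x + 2 * y + 3 * z) ^ 5 * (e2c x y z ^ 2 * e3c x y z ^ 0) := by
  simp only [r9_2, mons, es9, List.map_cons, List.map_nil, ndot, e2c, e3c]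
  push_cast
  ring

lemma v9_3 (x y z : ℝ) : ndot r9_3 (mons es9 x y z) =
    (x + 2 * y + 3 * z) ^ 3 * (e2c x y z ^ 3 * e3c x y z ^ 0) := by
  simp only [r9_3, mons, es9, List.map_cons, List.map_nil, ndot, e2c, e3c]
  push_cast
  ring

lemma v9_4 (x y z : ℝ) : ndot r9_4 (mons es9 x y z) =
    (x + 2 * y + 3 * z) ^ 1 * (e2c x y z ^ 4 * e3c x y z ^ 0) := by
  simp only [r9_4, mons, es9, List.map_cons, List.map_nil, ndot, e2c, e3c]
  push_cast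
  ring

lemma v9_5 (x y z : ℝ) : ndot r9_5 (mons es9 x y z) =
    (x + 2 * y + 3 * z) ^ 6 * (e2c x y z ^ 0 * e3c x y z ^ 1) := by
  simp only [r9_5, mons, es9, List.map_cons, List.map_nil, ndot, e2c, e3c]
  push_cast
  ring

lemma v9_6 (x y z : ℝ) : ndot r9_6 (mons es9 x y z) =
    (x + 2 * y + 3 * z) ^ 4 * (e2c x y z ^ 1 * e3c x y z ^ 1) := by
  simp only [r9_6, mons, es9, List.map_cons, List.map_nil, ndot, e2c, e3c]
  push_cast
  ring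

lemma v9_7 (x y z : ℝ) : ndot r9_7 (mons es9 x y z) =
    (x + 2 * y + 3 * z) ^ 2 * (e2c x y z ^ 2 * e3c x y z ^ 1) := by
  simp only [r9_7, mons, es9, List.map_cons, List.map_nil, ndot, e2c, e3c]
  push_cast
  ring

lemma v9_8 (x y z : ℝ) : ndot r9_8 (mons es9 x y z) =
    (x + 2 * y + 3 * z) ^ 0 * (e2c x y z ^ 3 * e3c x y z ^ 1) := by
  simp only [r9_8, mons, es9, List.map_cons, List.map_nil, ndot, e2c, e3c]
  push_cast
  ring

lemma v9_9 (x y z : ℝ) : ndot r9_9 (mons es9 x y z) =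
    (x + 2 * y + 3 * z) ^ 3 * (e2c x y z ^ 0 * e3c x y z ^ 2) := by
  simp only [r9_9, mons, es9, List.map_cons, List.map_nil, ndot, e2c, e3c]
  push_cast
  ring

lemma v9_10 (x y z : ℝ) : ndot r9_10 (mons es9 x y z) =
    (x + 2 * y + 3 * z) ^ 1 * (e2c x y z ^ 1 * e3c x y z ^ 2) := by
  simp only [r9_10, mons, es9, List.map_cons, List.map_nil, ndot, e2c, e3c]
  push_cast
  ring

lemma v9_11 (x y z : ℝ) : ndot r9_11 (mons es9 x y z) =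
    (x + 2 * y + 3 * z) ^ 0 * (e2c x y z ^ 0 * e3c x y z ^ 3) := by
  simp only [r9_11, mons, es9, List.map_cons, List.map_nil, ndot, e2c, e3c]
  push_cast
  ring

theorem T9 : Tab 55 es9 ks9 tab9 where
  len := by decide +kernel
  val := by
    intro x y z h
    simp only [tab9, KV, ks9, List.map_cons, List.map_nil,
      v9_0, v9_1, v9_2, v9_3, v9_4, v9_5, v9_6, v9_7, v9_8, v9_9, v9_10, v9_11, h, one_pow, one_mul]

end Vale.Agent.P154N
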