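import Vale.Agent.P154.Q4KRefl
import Vale.Agent.P154.Q4Part
import Vale.Agent.P154.Q4Sort

/-! P154, four states: tables of the homogenised invariant monomials on the sorted chamber -/

namespace Vale.Agent.P154.Q4K

open Vale.Agent.P154.G Vale.Agent.P154.Q4

/-- the exponents of the monomials of degree 9 -/
def exps9 : List (ℕ × ℕ × ℕ × ℕ) :=
  [(9, 0, 0, 0), (8, 1, 0, 0), (8, 0, 1, 0), (8, 0, 0, 1), (7, 2, 0, 0), (7, 1, 1, 0), (7, 1, 0, 1), (7, 0, 2, 0), (7, 0, 1, 1), (7, 0, 0, 2), (6, 3, 0, 0), (6, 2, 1, 0), (6, 2, 0, 1), (6, 1, 2, 0), (6, 1, 1, 1), (6, 1, 0, 2), (6, 0, 3, 0), (6, 0, 2, 1), (6, 0, 1, 2), (6, 0, 0, 3), (5, 4, 0, 0), (5, 3, 1, 0), (5, 3, 0, 1), (5, 2, 2, 0), (5, 2, 1, 1), (5, 2, 0, 2), (5, 1, 3, 0), (5, 1, 2, 1), (5, 1, 1, 2), (5, 1, 0,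 3), (5, 0, 4, 0), (5, 0, 3, 1), (5, 0, 2, 2), (5, 0, 1, 3), (5, 0, 0, 4), (4, 5, 0, 0), (4, 4, 1, 0), (4, 4, 0, 1), (4, 3, 2, 0), (4, 3, 1, 1), (4, 3, 0, 2), (4, 2, 3, 0), (4, 2, 2, 1), (4, 2, 1, 2), (4, 2, 0, 3), (4, 1, 4, 0), (4, 1, 3, 1), (4, 1, 2, 2), (4, 1, 1, 3), (4, 1, 0, 4), (4, 0, 5, 0), (4, 0, 4, 1), (4, 0, 3, 2), (4, 0, 2, 3), (4, 0, 1, 4), (4, 0, 0, 5), (3, 6, 0, 0), (3, 5, 1, 0), (3, 5, 0, 1), (3, 4, 2, 0), (3, 4, 1, 1), (3, 4, 0, 2), (3, 3, 3, 0), (3, 3, 2, 1), (3, 3, 1, 2), (3, 3, 0, 3), (3, 2, 4, 0), (3, 2, 3, 1), (3, 2, 2, 2), (3, 2, 1, 3), (3, 2, 0, 4), (3, 1, 5, 0), (3, 1, 4, 1), (3, 1, 3, 2), (3, 1, 2, 3), (3, 1, 1, 4), (3, 1, 0, 5), (3, 0, 6, 0), (3, 0, 5, 1), (3, 0, 4, 2), (3, 0, 3, 3), (3, 0, 2, 4), (3, 0, 1, 5), (3, 0, 0, 6), (2,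 7, 0, 0), (2, 6, 1, 0), (2, 6, 0, 1), (2, 5, 2, 0), (2, 5, 1, 1), (2, 5, 0, 2), (2, 4, 3, 0), (2, 4, 2, 1), (2, 4, 1, 2), (2, 4, 0, 3), (2, 3, 4, 0), (2, 3, 3, 1), (2, 3, 2, 2), (2, 3, 1, 3), (2, 3, 0, 4), (2, 2, 5, 0), (2, 2, 4, 1), (2, 2, 3, 2), (2, 2, 2, 3), (2, 2, 1, 4), (2, 2, 0, 5), (2, 1, 6, 0), (2, 1, 5, 1), (2, 1, 4, 2), (2, 1, 3, 3), (2, 1, 2, 4), (2, 1, 1, 5), (2, 1, 0, 6), (2, 0, 7, 0), (2, 0, 6, 1), (2, 0, 5, 2), (2, 0, 4, 3), (2, 0, 3, 4), (2, 0, 2, 5), (2, 0, 1, 6), (2, 0, 0, 7), (1, 8, 0, 0), (1, 7, 1, 0), (1, 7, 0, 1), (1, 6, 2, 0), (1, 6, 1, 1), (1, 6, 0, 2), (1, 5, 3, 0), (1, 5, 2, 1), (1, 5, 1, 2), (1, 5, 0, 3), (1, 4, 4, 0), (1, 4, 3, 1), (1, 4, 2, 2), (1, 4, 1, 3), (1, 4, 0, 4), (1, 3, 5, 0), (1, 3, 4, 1), (1, 3, 3, 2), (1, 3, 2, 3),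 (1, 3, 1, 4), (1, 3, 0, 5), (1, 2, 6, 0), (1, 2, 5, 1), (1, 2, 4, 2), (1, 2, 3, 3), (1, 2, 2, 4), (1, 2, 1, 5), (1, 2, 0, 6), (1, 1, 7, 0), (1, 1, 6, 1), (1, 1, 5, 2), (1, 1, 4, 3), (1, 1, 3, 4), (1, 1, 2, 5), (1, 1, 1, 6), (1, 1, 0, 7), (1, 0, 8, 0), (1, 0, 7, 1), (1, 0, 6, 2), (1, 0, 5, 3), (1, 0, 4, 4), (1, 0, 3, 5), (1, 0, 2, 6), (1, 0, 1, 7), (1, 0, 0, 8), (0, 9, 0, 0), (0, 8, 1, 0), (0, 8, 0, 1), (0, 7, 2, 0), (0, 7, 1, 1), (0, 7, 0, 2), (0, 6, 3, 0), (0, 6, 2, 1), (0, 6, 1, 2), (0, 6, 0, 3), (0, 5, 4, 0), (0, 5, 3, 1), (0, 5, 2, 2), (0, 5, 1, 3), (0, 5, 0, 4), (0, 4, 5, 0), (0, 4, 4, 1), (0, 4, 3, 2), (0, 4, 2, 3), (0, 4, 1, 4), (0, 4, 0, 5), (0, 3, 6, 0), (0, 3, 5, 1), (0, 3, 4, 2), (0, 3, 3, 3), (0, 3, 2, 4), (0, 3, 1, 5), (0, 3, 0, 6), (0, 2, 7,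 0), (0, 2, 6, 1), (0, 2, 5, 2), (0, 2, 4, 3), (0, 2, 3, 4), (0, 2, 2, 5), (0, 2, 1, 6), (0, 2, 0, 7), (0, 1, 8, 0), (0, 1, 7, 1), (0, 1, 6, 2), (0, 1, 5, 3), (0, 1, 4, 4), (0, 1, 3, 5), (0, 1, 2, 6), (0, 1, 1, 7), (0, 1, 0, 8), (0, 0, 9, 0), (0, 0, 8, 1), (0, 0, 7, 2), (0, 0, 6, 3), (0, 0, 5, 4), (0, 0, 4, 5), (0, 0, 3, 6), (0, 0, 2, 7), (0, 0, 1, 8), (0, 0, 0, 9)]

/-- value of a monomial -/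
def monv (x y z w : ℝ) (e : ℕ × ℕ × ℕ × ℕ) : ℝ := x ^ e.1 * y ^ e.2.1 * z ^ e.2.2.1 * w ^ e.2.2.2

/-- the monomials of degree 9 -/
def mons9 (x y z w : ℝ) : List ℝ := exps9.map (monv x y z w)

lemma mons9_length (x y z w : ℝ) : (mons9 x y z w).length = 220 := by
  rw [mons9, List.length_map]
  decide +kernel

lemma mons9_nonneg {x y z w : ℝ} (hx : 0 ≤ x) (hy : 0 ≤ y) (hz : 0 ≤ z) (hw : 0 ≤ w) :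
    ∀ m ∈ mons9 x y z w, 0 ≤ m := by
  intro m hm
  obtain ⟨e, _, rfl⟩ := List.mem_map.mp hm
  unfold monv
  positivity

def e2c (x y z w : ℝ) : ℝ := x * y + 2 * x * z + 3 * x * w + y ^ 2 + 4 * y * z + 6 * y * w + 3 * z ^ 2 + 9 * z * w + 6 * w ^ 2
def e3c (x y z w : ℝ) : ℝ := x * y * z + 2 * x * y * w + x * z ^ 2 + 4 * x * z * w + 3 * x * w ^ 2 + y ^ 2 * z + 2 * y ^ 2 * w + 2 * y * z ^ 2 + 8 * y * z * w + 6 * y * w ^ 2 + z ^ 3 + 6 * z ^ 2 * w + 9 * z * w ^ 2 + 4 * w ^ 3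
def e4c (x y z w : ℝ) : ℝ := x * y * z * w + x * y * w ^ 2 + x * z ^ 2 * w + 2 * x * z * w ^ 2 + x * w ^ 3 + y ^ 2 * z * w + y ^ 2 * w ^ 2 + 2 * y * z ^ 2 * w + 4 * y * z * w ^ 2 + 2 * y * w ^ 3 + z ^ 3 * w + 3 * z ^ 2 * w ^ 2 + 3 * z * w ^ 3 + w ^ 4

lemma E2_sorted (x y z w : ℝ) : E2 ![x + y + z + w, y + z + w, z + w, w] = e2c x y z w := by
  unfold E2 e2c
  simp only [Matrix.cons_val]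
  ring

lemma E3_sorted (x y z w : ℝ) : E3 ![x + y + z + w, y + z + w, z + w, w] = e3c x y z w := by
  unfold E3 e3c
  simp only [Matrix.cons_val]
  ring

lemma E4_sorted (x y z w : ℝ) : E4 ![x + y + z + w, y + z + w, z + w, w] = e4c x y z w := by
  unfold E4 e4c
  simp only [Matrix.cons_val]
  ring

end Vale.Agent.P154.Q4K
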