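import Vale.Agent.P154.Q4H7

/-! P154, four states: a polynomial minorant of `e₂ / Z` -/

namespace Vale.Agent.P154.Q4

open Vale.Agent.P154.G

/-- the polynomial (in `e₂, e₃, e₄` and the mass) -/
noncomputable def MCp (x y z Z : ℝ) : ℝ :=
    -5310493 / 1024000000 + 58592681 / 4096000000 * Z + 11842309 / 2048000000 * Z ^ 2 -
    63450483 / 819200000 * Z ^ 3 + 28513 / 200000 * Z ^ 4 - 65899 / 500000 * Z ^ 5 +
    3533 / 50000 * Z ^ 6 - 22553 / 1000000 * Z ^ 7 + 3977 / 1000000 * Z ^ 8 - 149 / 500000 * Z ^ 9 +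
    2932811 / 500000 * x - 14718533 / 1000000 * (x * Z) + 20623173 / 1000000 * (x * Z ^ 2) -
    1102263 / 62500 * (x * Z ^ 3) + 9419593 / 1000000 * (x * Z ^ 4) - 47932 / 15625 * (x * Z ^ 5) +
    34833 / 62500 * (x * Z ^ 6) - 43327 / 1000000 * (x * Z ^ 7) - 6618121 / 1000000 * y +
    28693621 / 1000000 * (y * Z) - 50852667 / 1000000 * (y * Z ^ 2) +
    23544603 / 500000 * (y * Z ^ 3) - 11994707 / 500000 * (y * Z ^ 4) +
    6362499 / 1000000 * (y * Z ^ 5) - 171281 / 250000 * (y * Z ^ 6) + 25157409 / 125000 * z -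
    59453973 / 62500 * (z * Z) + 85344323 / 50000 * (z * Z ^ 2) - 726640869 / 500000 * (z * Z ^ 3) +
    73082751 / 125000 * (z * Z ^ 4) - 44131217 / 500000 * (z * Z ^ 5) + 172993 / 1000000 * x ^ 2 -
    2204 / 3125 * (x ^ 2 * Z) + 563813 / 500000 * (x ^ 2 * Z ^ 2) -
    881539 / 1000000 * (x ^ 2 * Z ^ 3) + 67271 / 200000 * (x ^ 2 * Z ^ 4) -
    10031 / 200000 * (x ^ 2 * Z ^ 5) + 729407 / 200000 * (x * y) - 517761 / 50000 * (x * y * Z) +
    310627 / 31250 * (x * y * Z ^ 2) - 212663 / 62500 * (x * y * Z ^ 3) +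
    170729 / 1000000 * (x * y * Z ^ 4) - 650277 / 62500 * y ^ 2 + 7516427 / 250000 * (y ^ 2 * Z) -
    722953 / 25000 * (y ^ 2 * Z ^ 2) + 2314211 / 250000 * (y ^ 2 * Z ^ 3) +
    261016701 / 1000000 * (x * z) - 688526789 / 1000000 * (x * z * Z) +
    23760139 / 40000 * (x * z * Z ^ 2) - 166493387 / 1000000 * (x * z * Z ^ 3) -
    49683 / 1000000 * x ^ 3 + 61699 / 500000 * (x ^ 3 * Z) - 97747 / 1000000 * (x ^ 3 * Z ^ 2) +
    751 / 31250 * (x ^ 3 * Z ^ 3) - 112008001 / 1000000 * (y * z) +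
    112008001 / 500000 * (y * z * Z) - 112008001 / 1000000 * (y * z * Z ^ 2) -
    117689 / 250000 * (x ^ 2 * y) + 117689 / 125000 * (x ^ 2 * y * Z) -
    117689 / 250000 * (x ^ 2 * y * Z ^ 2)

/-- the quotient -/
noncomputable def MCr (x y z Z : ℝ) : ℝ :=
    5310493 / 1024000000 * Z ^ 7 - 16108737 / 4096000000 * Z ^ 8 - 9417 / 500000 * Z ^ 9 +
    43719 / 1000000 * Z ^ 10 - 36293 / 1000000 * Z ^ 11 + 15493 / 1000000 * Z ^ 12 -
    3381 / 1000000 * Z ^ 13 + 149 / 500000 * Z ^ 14 + x * Z ^ 6 - 1932811 / 500000 * (x * Z ^ 7) +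
    5987289 / 1000000 * (x * Z ^ 8) - 4782973 / 1000000 * (x * Z ^ 9) +
    2082973 / 1000000 * (x * Z ^ 10) - 235337 / 500000 * (x * Z ^ 11) +
    43327 / 1000000 * (x * Z ^ 12) + 6618121 / 1000000 * (y * Z ^ 7) -
    15457379 / 1000000 * (y * Z ^ 8) + 3329947 / 250000 * (y * Z ^ 9) -
    4992251 / 1000000 * (y * Z ^ 10) + 171281 / 250000 * (y * Z ^ 11) -
    25157409 / 125000 * (z * Z ^ 7) + 8574141 / 15625 * (z * Z ^ 8) -
    20406857 / 50000 * (z * Z ^ 9) + 44131217 / 500000 * (z * Z ^ 10) -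
    172993 / 1000000 * (x ^ 2 * Z ^ 7) + 179647 / 500000 * (x ^ 2 * Z ^ 8) -
    47209 / 200000 * (x ^ 2 * Z ^ 9) + 10031 / 200000 * (x ^ 2 * Z ^ 10) -
    729407 / 200000 * (x * y * Z ^ 7) + 61223 / 20000 * (x * y * Z ^ 8) -
    170729 / 1000000 * (x * y * Z ^ 9) + 650277 / 62500 * (y ^ 2 * Z ^ 7) -
    2314211 / 250000 * (y ^ 2 * Z ^ 8) - 261016701 / 1000000 * (x * z * Z ^ 7) +
    166493387 / 1000000 * (x * z * Z ^ 8) + 49683 / 1000000 * (x ^ 3 * Z ^ 7) -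
    751 / 31250 * (x ^ 3 * Z ^ 8) + 112008001 / 1000000 * (y * z * Z ^ 7) +
    117689 / 250000 * (x ^ 2 * y * Z ^ 7)

/-- the target times `Z ^ 7` -/
noncomputable def MCf (x y z Z : ℝ) : ℝ :=
    x * Z ^ 6

lemma MC_id (x y z Z : ℝ) :
    MCf x y z Z - MCp x y z Z * Z ^ 7 = (Z - 1) ^ 2 * MCr x y z Z := by
  unfold MCf MCp MCr
  ring

end Vale.Agent.P154.Q4
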