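import Vale.Agent.P154.Q4Part

/-! P154, four states: symmetric monomials of degree 7 -/

namespace Vale.Agent.P154.Q4

open Vale.Agent.P154.G

lemma mo_7_0_0_0 (v : V 4) : mono ![7, 0, 0, 0] v =
    6 * sg v ^ 7 - 42 * sg v ^ 5 * E2 v + 42 * sg v ^ 4 * E3 v + 84 * sg v ^ 3 * E2 v ^ 2 - 42 * sg v ^ 3 * E4 v - 126 * sg v ^ 2 * E2 v * E3 v - 42 * sg v * E2 v ^ 3 + 84 * sg v * E2 v * E4 v + 42 * sg v * E3 v ^ 2 + 42 * E2 v ^ 2 * E3 v - 42 * E3 v * E4 v := by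
  rw [mono_eq]; (try unfold E2); (try unfold E3); (try unfold E4); (try rw [sgE4]); ring

lemma mo_6_1_0_0 (v : V 4) : mono ![6, 1, 0, 0] v =
    2 * sg v ^ 5 * E2 v - 2 * sg v ^ 4 * E3 v - 10 * sg v ^ 3 * E2 v ^ 2 + 2 * sg v ^ 3 * E4 v + 18 * sg v ^ 2 * E2 v * E3 v + 10 * sg v * E2 v ^ 3 - 16 * sg v * E2 v * E4 v - 8 * sg v * E3 v ^ 2 - 14 * E2 v ^ 2 * E3 v + 14 * E3 v * E4 v := by
  rw [mono_eq]; (try unfold E2); (try unfold E3); (try unfold E4); (try rw [sgE4]); ring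

lemma mo_5_2_0_0 (v : V 4) : mono ![5, 2, 0, 0] v =
    - 4 * sg v ^ 4 * E3 v + 2 * sg v ^ 3 * E2 v ^ 2 + 4 * sg v ^ 3 * E4 v + 12 * sg v ^ 2 * E2 v * E3 v - 6 * sg v * E2 v ^ 3 - 8 * sg v * E2 v * E4 v - 14 * sg v * E3 v ^ 2 + 6 * E2 v ^ 2 * E3 v + 14 * E3 v * E4 v := by
  rw [mono_eq]; (try unfold E2); (try unfold E3); (try unfold E4); (try rw [sgE4]); ring

lemma mo_5_1_1_0 (v : V 4) : mono ![5, 1, 1, 0] v =
    2 * sg v ^ 4 * E3 v - 2 * sg v ^ 3 * E4 v - 8 * sg v ^ 2 * E2 v * E3 v + 6 * sg v * E2 v * E4 v + 8 * sg v * E3 v ^ 2 + 4 * E2 v ^ 2 * E3 v - 14 * E3 v * E4 v := by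
  rw [mono_eq]; (try unfold E2); (try unfold E3); (try unfold E4); (try rw [sgE4]); ring

lemma mo_4_3_0_0 (v : V 4) : mono ![4, 3, 0, 0] v =
    6 * sg v ^ 3 * E4 v - 6 * sg v ^ 2 * E2 v * E3 v + 2 * sg v * E2 v ^ 3 - 4 * sg v * E2 v * E4 v + 10 * sg v * E3 v ^ 2 - 2 * E2 v ^ 2 * E3 v - 10 * E3 v * E4 v := by
  rw [mono_eq]; (try unfold E2); (try unfold E3); (try unfold E4); (try rw [sgE4]); ring

lemma mo_4_2_1_0 (v : V 4) : mono ![4, 2, 1, 0] v =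
    - 3 * sg v ^ 3 * E4 v + 1 * sg v ^ 2 * E2 v * E3 v + 8 * sg v * E2 v * E4 v - 1 * sg v * E3 v ^ 2 - 2 * E2 v ^ 2 * E3 v - 2 * E3 v * E4 v := by
  rw [mono_eq]; (try unfold E2); (try unfold E3); (try unfold E4); (try rw [sgE4]); ring

lemma mo_4_1_1_1 (v : V 4) : mono ![4, 1, 1, 1] v =
    6 * sg v ^ 3 * E4 v - 18 * sg v * E2 v * E4 v + 18 * E3 v * E4 v := by
  rw [mono_eq]; (try unfold E2); (try unfold E3); (try unfold E4); (try rw [sgE4]); ring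

lemma mo_3_3_1_0 (v : V 4) : mono ![3, 3, 1, 0] v =
    - 2 * sg v * E2 v * E4 v - 4 * sg v * E3 v ^ 2 + 2 * E2 v ^ 2 * E3 v + 10 * E3 v * E4 v := by
  rw [mono_eq]; (try unfold E2); (try unfold E3); (try unfold E4); (try rw [sgE4]); ring

lemma mo_3_2_2_0 (v : V 4) : mono ![3, 2, 2, 0] v =
    - 4 * sg v * E2 v * E4 v + 2 * sg v * E3 v ^ 2 - 2 * E3 v * E4 v := by
  rw [mono_eq]; (try unfold E2); (try unfold E3); (try unfold E4); (try rw [sgE4]); ring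

lemma mo_3_2_1_1 (v : V 4) : mono ![3, 2, 1, 1] v =
    2 * sg v * E2 v * E4 v - 6 * E3 v * E4 v := by
  rw [mono_eq]; (try unfold E2); (try unfold E3); (try unfold E4); (try rw [sgE4]); ring

lemma mo_2_2_2_1 (v : V 4) : mono ![2, 2, 2, 1] v =
    6 * E3 v * E4 v := by
  rw [mono_eq]; (try unfold E2); (try unfold E3); (try unfold E4); (try rw [sgE4]); ring

end Vale.Agent.P154.Q4
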