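import Vale.Agent.P154.Q4Conv
import Vale.Agent.P154.Q4PInv

/-! P154, four states: the multipliers `D` and `B` -/

namespace Vale.Agent.P154.Q4

open Vale.Agent.P154.G PP

/-- integer coefficients of `D` in the invariants -/
def ZD : List (ℤ × ℕ × ℕ × ℕ) :=
  [(27000000, 0, 0, 0), (4842342, 0, 0, 1), (2257470, 0, 0, 2), (-45830907, 0, 1, 0),
  (128809413, 0, 1, 1), (433908819, 0, 2, 0), (-47517291, 1, 0, 0), (-4778316, 1, 0, 1),
  (-111041964, 1, 1, 0), (-156278565, 1, 2, 0), (60806010, 2, 0, 0), (-11752125, 2, 0, 1),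
  (92843184, 2, 1, 0), (-30843679, 3, 0, 0), (-495, 4, 0, 0)]

/-- integer coefficients of `B` in the invariants -/
def ZB : List (ℤ × ℕ × ℕ × ℕ) :=
  [(589381632, 0, 0, 1), (-3100013001, 0, 1, 0), (-4905619200, 0, 2, 0),
  (3072000000, 1, 0, 0), (2148470016, 1, 1, 0), (-923204864, 2, 0, 0), (138214912, 3, 0, 0)]

/-- coefficients of `D` in the invariants -/
noncomputable def LD : List (ℝ × ℕ × ℕ × ℕ) := ZD.map (conv 27000000)

/-- coefficients of `B` in the invariants -/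
noncomputable def LB : List (ℝ × ℕ × ℕ × ℕ) := ZB.map (conv 2304000000)

/-- the multiplier `D` -/
noncomputable def D4 : V 4 → ℝ := ML LD

/-- the multiplier `B` -/
noncomputable def B4 : V 4 → ℝ := ML LB

/-- `D` in the elementary symmetric functions -/
noncomputable def PD (x y z : ℝ) : ℝ :=
    (4851 / 500000) + (424 / 15625) * (z) + (17123328 / 3125) * (z ^ 2) +
    (1211 / 12500) * (y) + (109854688 / 15625) * (y * z) + (-1364332 / 625) * (y ^ 2) +
    (-14831 / 187500) * (x) + (23604432 / 15625) * (x * z) + (-27136 / 46875) * (x * y) +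
    (9260952 / 3125) * (x * y ^ 2) + (28871 / 140625) * (x ^ 2) +
    (-8022784 / 1125) * (x ^ 2 * z) + (81550984 / 140625) * (x ^ 2 * y) +
    (-52654 / 421875) * (x ^ 3) + (-704 / 9375) * (x ^ 4)

/-- `B` in the elementary symmetric functions -/
noncomputable def PB (x y z : ℝ) : ℝ :=
    (145621311 / 256000000) + (1023232 / 15625) * (z) + (-1242321601 / 32000000) * (y) +
    (-85167 / 625) * (y ^ 2) + (665760323 / 192000000) * (x) + (3590038 / 46875) * (x * y) +
    (2633743 / 562500) * (x ^ 2) + (-4319216 / 140625) * (x ^ 3)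

theorem D4_E1 {v : V 4} (h : sg v = 1) : D4 v = PD (E2 v) (E3 v) (E4 v) := by
  unfold D4 ML
  rw [h, rr_E1 h, ss_E1 h, ww_E1 h]
  simp only [QL, LD, ZD, conv, PD, List.map_cons, List.map_nil, List.sum_cons, List.sum_nil]
  push_cast
  ring

theorem B4_E1 {v : V 4} (h : sg v = 1) : B4 v = PB (E2 v) (E3 v) (E4 v) := by
  unfold B4 ML
  rw [h, rr_E1 h, ss_E1 h, ww_E1 h]
  simp only [QL, LB, ZB, conv, PB, List.map_cons, List.map_nil, List.sum_cons, List.sum_nil]
  push_cast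
  ring

theorem LD_nn (v : V 4) (hv : ∀ i, 0 ≤ v i) : 0 ≤ QL LD (rr v) (ss v) (ww v) :=
  QL_nn_of_check (M := 27000000) (N := 8) (by norm_num) ZD (by decide +kernel)
    (by simp [QL, ZD, conv]) (by decide +kernel) v hv

theorem LB_nn (v : V 4) (hv : ∀ i, 0 ≤ v i) : 0 ≤ QL LB (rr v) (ss v) (ww v) :=
  QL_nn_of_check (M := 2304000000) (N := 6) (by norm_num) ZB (by decide +kernel)
    (by simp [QL, ZB, conv]) (by decide +kernel) v hv

theorem D4_nn {v : V 4} (hv : ∀ i, 0 ≤ v i) : 0 ≤ D4 v := ML_nn LD_nn hv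

theorem B4_nn {v : V 4} (hv : ∀ i, 0 ≤ v i) : 0 ≤ B4 v := ML_nn LB_nn hv

theorem D4_bd {v : V 4} (hv : ∀ i, 0 ≤ v i) : |D4 v| ≤ KL LD * sg v := ML_bd LD hv

theorem B4_bd {v : V 4} (hv : ∀ i, 0 ≤ v i) : |B4 v| ≤ KL LB * sg v := ML_bd LB hv

theorem D4_smul (t : ℝ) (v : V 4) : D4 (fun i => t * v i) = t * D4 v := ML_smul LD t v

theorem B4_smul (t : ℝ) (v : V 4) : B4 (fun i => t * v i) = t * B4 v := ML_smul LB t v

end Vale.Agent.P154.Q4
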