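import Vale.Agent.P154.Q4Mo6
import Vale.Agent.P154.Q4E

/-! P154, four states: a part of degree 6 of a polynomial -/

namespace Vale.Agent.P154.Q4

open Vale.Agent.P154.G

/-- coefficients on the symmetric monomials of degree 6 -/
noncomputable def LTB6 : List ((Fin 4 → ℕ) × ℝ) :=
  [(![2, 2, 1, 1], (7365456019 / 12000000)), (![2, 2, 2, 0], (695475053 / 4500000)), (![3, 1, 1, 1], (784223983 / 3600000)), (![3, 2, 1, 0], (1524111827 / 3000000)), (![3, 3, 0, 0], (-429098551 / 7200000)), (![4, 1, 1, 0], (65074219 / 1000000)), (![4, 2, 0, 0], (-74522761 / 1000000)), (![5, 1, 0, 0], (-693849 / 100000)), (![6, 0, 0, 0], (215417 / 1000000))]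

theorem Tsum_TB6 (v : V 4) : Tsum LTB6 v =
    (-214442841 / 500000) * E3 v ^ 2 + (98376 / 125) * E2 v * E4 v + (52855193 / 1800000) * E2 v ^ 3 + (92943931 / 750000) * sg v * E2 v * E3 v + (-1382107581 / 1000000) * sg v ^ 2 * E4 v + (-20476271 / 250000) * sg v ^ 2 * E2 v ^ 2 + (224935737 / 500000) * sg v ^ 3 * E3 v + (-2703999 / 125000) * sg v ^ 4 * E2 v + (646251 / 500000) * sg v ^ 6 := by
  unfold Tsum LTB6
  simp only [List.map_cons, List.map_nil, List.sum_cons, List.sum_nil, mo_2_2_1_1, mo_2_2_2_0, mo_3_1_1_1, mo_3_2_1_0, mo_3_3_0_0, mo_4_1_1_0, mo_4_2_0_0, mo_5_1_0_0, mo_6_0_0_0]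
  ring

theorem Ksum_TB6 {p r : V 4} (hp : sg p = 1) (hr : sg r = 1) : Ksum LTB6 p r =
    ((496320768 / 15625) + (-2977924608 / 15625) * E4 r + (2977924608 / 15625) * E3 r + (1488962304 / 15625) * E3 r ^ 2 + (-2977924608 / 15625) * E2 r + (2977924608 / 15625) * E2 r * E4 r + (-5955849216 / 15625) * E2 r * E3 r + (4466886912 / 15625) * E2 r ^ 2 + (-992641536 / 15625) * E2 r ^ 3) +
    E4 p * ((-2977924608 / 15625) + (201725661632 / 15625) * E4 r + (43561012992 / 15625) * E3 r + (-195731727296 / 15625) * E3 r ^ 2 + (16091294208 / 15625) * E2 r + (-961572515072 / 15625) * E2 r * E4 r + (372358695232 / 15625) * E2 r * E3 r + (-57851961344 / 15625) * E2 r ^ 2 + (-62620439296 / 9375) * E2 r ^ 3) +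
    E3 p * ((2977924608 / 15625) + (43561012992 / 15625) * E4 r + (-43561012992 / 15625) * E3 r + (-2435397888 / 625) * E3 r ^ 2 + (-16091294208 / 15625) * E2 r + (4673573376 / 625) * E2 r * E4 r + (15868858624 / 3125) * E2 r * E3 r + (57851961344 / 15625) * E2 r ^ 2 + (-3148585984 / 625) * E2 r ^ 3) +
    E3 p ^ 2 * ((1488962304 / 15625) + (-195731727296 / 15625) * E4 r + (-2435397888 / 625) * E3 r + (66177717824 / 15625) * E3 r ^ 2 + (-3605013504 / 15625) * E2 r + (-72342152704 / 3125) * E2 r * E4 r + (110027936832 / 3125) * E2 r * E3 r + (49319099904 / 15625) * E2 r ^ 2 + (-869608239872 / 46875) * E2 r ^ 3) +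
    E2 p * ((-2977924608 / 15625) + (16091294208 / 15625) * E4 r + (-16091294208 / 15625) * E3 r + (-3605013504 / 15625) * E3 r ^ 2 + (16091294208 / 15625) * E2 r + (-7210027008 / 15625) * E2 r * E4 r + (23301321216 / 15625) * E2 r * E3 r + (-19696307712 / 15625) * E2 r ^ 2 + (2403342336 / 15625) * E2 r ^ 3) +
    E2 p * E4 p * ((2977924608 / 15625) + (-961572515072 / 15625) * E4 r + (4673573376 / 625) * E3 r + (-72342152704 / 3125) * E3 r ^ 2 + (-7210027008 / 15625) * E2 r + (3975696360448 / 15625) * E2 r * E4 r + (-1898693005312 / 46875) * E2 r * E3 r + (-10796882944 / 3125) * E2 r ^ 2 + (824257643264 / 46875) * E2 r ^ 3) +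
    E2 p * E3 p * ((-5955849216 / 15625) + (372358695232 / 15625) * E4 r + (15868858624 / 3125) * E3 r + (110027936832 / 3125) * E3 r ^ 2 + (23301321216 / 15625) * E2 r + (-1898693005312 / 46875) * E2 r * E4 r + (-2062836648256 / 46875) * E2 r * E3 r + (-80178853888 / 15625) * E2 r ^ 2 + (193649287936 / 9375) * E2 r ^ 3) +
    E2 p ^ 2 * ((4466886912 / 15625) + (-57851961344 / 15625) * E4 r + (57851961344 / 15625) * E3 r + (49319099904 / 15625) * E3 r ^ 2 + (-19696307712 / 15625) * E2 r + (-10796882944 / 3125) * E2 r * E4 r + (-80178853888 / 15625) * E2 r * E3 r + (-7295899648 / 15625) * E2 r ^ 2 + (43431907328 / 15625) * E2 r ^ 3) +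
    E2 p ^ 3 * ((-992641536 / 15625) + (-62620439296 / 9375) * E4 r + (-3148585984 / 625) * E3 r + (-869608239872 / 46875) * E3 r ^ 2 + (2403342336 / 15625) * E2 r + (824257643264 / 46875) * E2 r * E4 r + (193649287936 / 9375) * E2 r * E3 r + (43431907328 / 15625) * E2 r ^ 2 + (-1282125486848 / 140625) * E2 r ^ 3) := by
  unfold Ksum LTB6
  simp only [List.map_cons, List.map_nil, List.sum_cons, List.sum_nil, mo_2_2_1_1, mo_2_2_2_0, mo_3_1_1_1, mo_3_2_1_0, mo_3_3_0_0, mo_4_1_1_0, mo_4_2_0_0, mo_5_1_0_0, mo_6_0_0_0, hp, hr,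
    Fin.sum_univ_four, Matrix.cons_val]
  ring

end Vale.Agent.P154.Q4
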