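import Vale.Agent.P154.Q4Mo8
import Vale.Agent.P154.Q4E

/-! P154, four states: a part of degree 8 of a polynomial -/

namespace Vale.Agent.P154.Q4

open Vale.Agent.P154.G

/-- coefficients on the symmetric monomials of degree 8 -/
noncomputable def LTB8b : List ((Fin 4 → ℕ) × ℝ) :=
  [(![4, 2, 1, 1], (1292571193 / 2000000)), (![4, 2, 2, 0], (94719137 / 500000)), (![4, 3, 1, 0], (305125413 / 500000)), (![4, 4, 0, 0], (2344319 / 250000))]

theorem Tsum_TB8b (v : V 4) : Tsum LTB8b v =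
    (-250543351 / 250000) * E4 v ^ 2 + (-608983753 / 500000) * E2 v * E3 v ^ 2 + (-121967261 / 100000) * E2 v ^ 2 * E4 v + (2344319 / 62500) * E2 v ^ 4 + (901972847 / 200000) * sg v * E3 v * E4 v + (46021441 / 100000) * sg v * E2 v ^ 2 * E3 v + (-47912931 / 62500) * sg v ^ 2 * E3 v ^ 2 + (74603687 / 1000000) * sg v ^ 2 * E2 v * E4 v := by
  unfold Tsum LTB8b
  simp only [List.map_cons, List.map_nil, List.sum_cons, List.sum_nil, mo_4_2_1_1, mo_4_2_2_0, mo_4_3_1_0, mo_4_4_0_0]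
  ring

set_option maxHeartbeats 2000000 in
theorem Ksum_TB8b {p r : V 4} (hp : sg p = 1) (hr : sg r = 1) : Ksum LTB8b p r =
    E4 p ^ 2 * ((100294340149248 / 15625) * E4 r ^ 2 + (-67955080798208 / 15625) * E3 r * E4 r + (8738240331776 / 15625) * E3 r ^ 2 + (25482726301696 / 15625) * E2 r * E4 r + (2978796617728 / 3125) * E2 r * E3 r ^ 2 + (-37279808110592 / 15625) * E2 r ^ 2 * E4 r + (-8686469726208 / 15625) * E2 r ^ 2 * E3 r + (921823739904 / 15625) * E2 r ^ 4) +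
    E3 p * E4 p * ((-67955080798208 / 15625) * E4 r ^ 2 + (14993931388928 / 3125) * E3 r * E4 r + (-14956133556224 / 15625) * E3 r ^ 2 + (-13812547540992 / 15625) * E2 r * E4 r + (-11165361737728 / 15625) * E2 r * E3 r ^ 2 + (10210764886016 / 15625) * E2 r ^ 2 * E4 r + (11165361737728 / 15625) * E2 r ^ 2 * E3 r + (-1229098319872 / 15625) * E2 r ^ 4) +
    E3 p ^ 2 * ((8738240331776 / 15625) * E4 r ^ 2 + (-14956133556224 / 15625) * E3 r * E4 r + (3890075713536 / 15625) * E3 r ^ 2 + (927013670912 / 15625) * E2 r * E4 r + (927013670912 / 15625) * E2 r * E3 r ^ 2 + (1874658361344 / 15625) * E2 r ^ 2 * E4 r + (-495778402304 / 3125) * E2 r ^ 2 * E3 r + (307274579968 / 15625) * E2 r ^ 4) +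
    E2 p * E4 p * ((25482726301696 / 15625) * E4 r ^ 2 + (-13812547540992 / 15625) * E3 r * E4 r + (927013670912 / 15625) * E3 r ^ 2 + (8834035970048 / 15625) * E2 r * E4 r + (6186850166784 / 15625) * E2 r * E3 r ^ 2 + (-13960081608704 / 15625) * E2 r ^ 2 * E4 r + (-3083093485568 / 15625) * E2 r ^ 2 * E3 r + (614549159936 / 15625) * E2 r ^ 4) +
    E2 p * E3 p ^ 2 * ((2978796617728 / 3125) * E4 r ^ 2 + (-11165361737728 / 15625) * E3 r * E4 r + (927013670912 / 15625) * E3 r ^ 2 + (6186850166784 / 15625) * E2 r * E4 r + (6186850166784 / 15625) * E2 r * E3 r ^ 2 + (-8665710002176 / 15625) * E2 r ^ 2 * E4 r + (-3083093485568 / 15625) * E2 r ^ 2 * E3 r + (614549159936 / 15625) * E2 r ^ 4) +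
    E2 p ^ 2 * E4 p * ((-37279808110592 / 15625) * E4 r ^ 2 + (10210764886016 / 15625) * E3 r * E4 r + (1874658361344 / 15625) * E3 r ^ 2 + (-13960081608704 / 15625) * E2 r * E4 r + (-8665710002176 / 15625) * E2 r * E3 r ^ 2 + (25461966577664 / 15625) * E2 r ^ 2 * E4 r + (2458196639744 / 15625) * E2 r ^ 2 * E3 r + (-614549159936 / 15625) * E2 r ^ 4) +
    E2 p ^ 2 * E3 p * ((-8686469726208 / 15625) * E4 r ^ 2 + (11165361737728 / 15625) * E3 r * E4 r + (-495778402304 / 3125) * E3 r ^ 2 + (-3083093485568 / 15625) * E2 r * E4 r + (-3083093485568 / 15625) * E2 r * E3 r ^ 2 + (2458196639744 / 15625) * E2 r ^ 2 * E4 r + (3083093485568 / 15625) * E2 r ^ 2 * E3 r + (-614549159936 / 15625) * E2 r ^ 4) +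
    E2 p ^ 4 * ((921823739904 / 15625) * E4 r ^ 2 + (-1229098319872 / 15625) * E3 r * E4 r + (307274579968 / 15625) * E3 r ^ 2 + (614549159936 / 15625) * E2 r * E4 r + (614549159936 / 15625) * E2 r * E3 r ^ 2 + (-614549159936 / 15625) * E2 r ^ 2 * E4 r + (-614549159936 / 15625) * E2 r ^ 2 * E3 r + (153637289984 / 15625) * E2 r ^ 4) := by
  unfold Ksum LTB8b
  simp only [List.map_cons, List.map_nil, List.sum_cons, List.sum_nil, mo_4_2_1_1, mo_4_2_2_0, mo_4_3_1_0, mo_4_4_0_0, hp, hr,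
    Fin.sum_univ_four, Matrix.cons_val]
  ring

end Vale.Agent.P154.Q4
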