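import Vale.Agent.P154.Q4Mo9
import Vale.Agent.P154.Q4E

/-! P154, four states: a part of degree 9 of a polynomial -/

namespace Vale.Agent.P154.Q4

open Vale.Agent.P154.G

/-- coefficients on the symmetric monomials of degree 9 -/
noncomputable def LTB9c : List ((Fin 4 → ℕ) × ℝ) :=
  [(![4, 4, 1, 0], (-58526903 / 500000)), (![5, 2, 1, 1], (-188931179 / 2000000)), (![5, 2, 2, 0], (-41987573 / 1000000))]

theorem Tsum_TB9c (v : V 4) : Tsum LTB9c v =
    (-477124137 / 500000) * E3 v ^ 3 + (5482041 / 200000) * E2 v * E3 v * E4 v + (-58526903 / 250000) * E2 v ^ 3 * E3 v + (1065582027 / 1000000) * sg v * E4 v ^ 2 + (477124137 / 500000) * sg v * E2 v * E3 v ^ 2 + (297050273 / 1000000) * sg v * E2 v ^ 2 * E4 v + (-981606881 / 1000000) * sg v ^ 2 * E3 v * E4 v + (-41987573 / 500000) * sg v ^ 3 * E3 v ^ 2 + (-20980887 / 1000000) * sg v ^ 3 * E2 v * E4 v := by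
  unfold Tsum LTB9c
  simp only [List.map_cons, List.map_nil, List.sum_cons, List.sum_nil, mo_4_4_1_0, mo_5_2_1_1, mo_5_2_2_0]
  ring

set_option maxHeartbeats 2000000 in
theorem Ksum_TB9c {p r : V 4} (hp : sg p = 1) (hr : sg r = 1) : Ksum LTB9c p r =
    E4 p ^ 2 * ((-401447100416 / 125) * E4 r ^ 2 + (49492963155968 / 15625) * E3 r * E4 r + (687924396032 / 15625) * E3 r ^ 2 + (30830916550656 / 15625) * E3 r ^ 3 + (-2923573010432 / 15625) * E2 r * E4 r + (-31044263043072 / 15625) * E2 r * E3 r * E4 r + (-30830916550656 / 15625) * E2 r * E3 r ^ 2 + (-818328756224 / 15625) * E2 r ^ 2 * E4 r + (1917809557504 / 3125) * E2 r ^ 3 * E3 r) +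
    E3 p * E4 p * ((49492963155968 / 15625) * E4 r ^ 2 + (-49492963155968 / 15625) * E3 r * E4 r + (-5753428672512 / 3125) * E3 r ^ 3 + (1547724218368 / 15625) * E2 r * E4 r + (5383343333376 / 3125) * E2 r * E3 r * E4 r + (5753428672512 / 3125) * E2 r * E3 r ^ 2 + (4945875132416 / 15625) * E2 r ^ 2 * E4 r + (-1917809557504 / 3125) * E2 r ^ 3 * E3 r) +
    E3 p ^ 2 * ((687924396032 / 15625) * E4 r ^ 2 + (-687924396032 / 15625) * E3 r ^ 2 + (-2063773188096 / 15625) * E3 r ^ 3 + (1375848792064 / 15625) * E2 r * E4 r + (4127546376192 / 15625) * E2 r * E3 r * E4 r + (2063773188096 / 15625) * E2 r * E3 r ^ 2 + (-4127546376192 / 15625) * E2 r ^ 2 * E4 r) +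
    E3 p ^ 3 * ((30830916550656 / 15625) * E4 r ^ 2 + (-5753428672512 / 3125) * E3 r * E4 r + (-2063773188096 / 15625) * E3 r ^ 2 + (-23451605581824 / 15625) * E3 r ^ 3 + (4127546376192 / 15625) * E2 r * E4 r + (955579858944 / 625) * E2 r * E3 r * E4 r + (23451605581824 / 15625) * E2 r * E3 r ^ 2 + (-6629210456064 / 15625) * E2 r ^ 2 * E4 r + (-5753428672512 / 15625) * E2 r ^ 3 * E3 r) +
    E2 p * E4 p * ((-2923573010432 / 15625) * E4 r ^ 2 + (1547724218368 / 15625) * E3 r * E4 r + (1375848792064 / 15625) * E3 r ^ 2 + (4127546376192 / 15625) * E3 r ^ 3 + (-4299421802496 / 15625) * E2 r * E4 r + (-15993713844224 / 15625) * E2 r * E3 r * E4 r + (-4127546376192 / 15625) * E2 r * E3 r ^ 2 + (12898265407488 / 15625) * E2 r ^ 2 * E4 r) +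
    E2 p * E3 p * E4 p * ((-31044263043072 / 15625) * E4 r ^ 2 + (5383343333376 / 3125) * E3 r * E4 r + (4127546376192 / 15625) * E3 r ^ 2 + (955579858944 / 625) * E3 r ^ 3 + (-15993713844224 / 15625) * E2 r * E4 r + (-71129621946368 / 15625) * E2 r * E3 r * E4 r + (-955579858944 / 625) * E2 r * E3 r ^ 2 + (44145522417664 / 15625) * E2 r ^ 2 * E4 r + (3835619115008 / 15625) * E2 r ^ 3 * E3 r) +
    E2 p * E3 p ^ 2 * ((-30830916550656 / 15625) * E4 r ^ 2 + (5753428672512 / 3125) * E3 r * E4 r + (2063773188096 / 15625) * E3 r ^ 2 + (23451605581824 / 15625) * E3 r ^ 3 + (-4127546376192 / 15625) * E2 r * E4 r + (-955579858944 / 625) * E2 r * E3 r * E4 r + (-23451605581824 / 15625) * E2 r * E3 r ^ 2 + (6629210456064 / 15625) * E2 r ^ 2 * E4 r + (5753428672512 / 15625) * E2 r ^ 3 * E3 r) +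
    E2 p ^ 2 * E4 p * ((-818328756224 / 15625) * E4 r ^ 2 + (4945875132416 / 15625) * E3 r * E4 r + (-4127546376192 / 15625) * E3 r ^ 2 + (-6629210456064 / 15625) * E3 r ^ 3 + (12898265407488 / 15625) * E2 r * E4 r + (44145522417664 / 15625) * E2 r * E3 r * E4 r + (6629210456064 / 15625) * E2 r * E3 r ^ 2 + (-40612605779968 / 15625) * E2 r ^ 2 * E4 r + (1917809557504 / 15625) * E2 r ^ 3 * E3 r) +
    E2 p ^ 3 * E3 p * ((1917809557504 / 3125) * E4 r ^ 2 + (-1917809557504 / 3125) * E3 r * E4 r + (-5753428672512 / 15625) * E3 r ^ 3 + (3835619115008 / 15625) * E2 r * E3 r * E4 r + (5753428672512 / 15625) * E2 r * E3 r ^ 2 + (1917809557504 / 15625) * E2 r ^ 2 * E4 r + (-1917809557504 / 15625) * E2 r ^ 3 * E3 r) := by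
  unfold Ksum LTB9c
  simp only [List.map_cons, List.map_nil, List.sum_cons, List.sum_nil, mo_4_4_1_0, mo_5_2_1_1, mo_5_2_2_0, hp, hr,
    Fin.sum_univ_four, Matrix.cons_val]
  ring

end Vale.Agent.P154.Q4
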