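import Vale.Agent.P154.Q4Mo6
import Vale.Agent.P154.Q4E

/-! P154, four states: a part of degree 6 of a polynomial -/

namespace Vale.Agent.P154.Q4

open Vale.Agent.P154.G

/-- coefficients on the symmetric monomials of degree 6 -/
noncomputable def LTC6 : List ((Fin 4 → ℕ) × ℝ) :=
  [(![2, 2, 1, 1], (-867297633 / 250000)), (![2, 2, 2, 0], (-25131091 / 93750)), (![3, 1, 1, 1], (-1313665847 / 1125000)), (![3, 2, 1, 0], (-117085001 / 125000)), (![3, 3, 0, 0], (-60136327 / 1500000)), (![4, 1, 1, 0], (-27248119 / 150000)), (![4, 2, 0, 0], (-19932949 / 375000)), (![5, 1, 0, 0], (-9843553 / 750000)), (![6, 0, 0, 0], (-3533 / 112500))]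

theorem Tsum_TC6 (v : V 4) : Tsum LTC6 v =
    (433518 / 15625) * E3 v ^ 2 + (-87005567 / 125000) * E2 v * E4 v + (16561 / 125000) * E2 v ^ 3 + (172587 / 6250) * sg v * E2 v * E3 v + (-85344323 / 18750) * sg v ^ 2 * E4 v + (-563813 / 187500) * sg v ^ 2 * E2 v ^ 2 + (-7848201 / 62500) * sg v ^ 3 * E3 v + (-9419593 / 375000) * sg v ^ 4 * E2 v + (-3533 / 18750) * sg v ^ 6 := by
  unfold Tsum LTC6
  simp only [List.map_cons, List.map_nil, List.sum_cons, List.sum_nil, mo_2_2_1_1, mo_2_2_2_0, mo_3_1_1_1, mo_3_2_1_0, mo_3_3_0_0, mo_4_1_1_0, mo_4_2_0_0, mo_5_1_0_0, mo_6_0_0_0]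
  ring

theorem Ksum_TC6 {p r : V 4} (hp : sg p = 1) (hr : sg r = 1) : Ksum LTC6 p r =
    ((-14471168 / 3125) + (86827008 / 3125) * E4 r + (-86827008 / 3125) * E3 r + (-43413504 / 3125) * E3 r ^ 2 + (86827008 / 3125) * E2 r + (-86827008 / 3125) * E2 r * E4 r + (173654016 / 3125) * E2 r * E3 r + (-130240512 / 3125) * E2 r ^ 2 + (28942336 / 3125) * E2 r ^ 3) +
    E4 p * ((86827008 / 3125) + (-11118874113536 / 46875) * E4 r + (64139063296 / 9375) * E3 r + (-135293469184 / 3125) * E3 r ^ 2 + (-17894228992 / 46875) * E2 r + (19592892686336 / 46875) * E2 r * E4 r + (816660470272 / 46875) * E2 r * E3 r + (-9868173312 / 15625) * E2 r ^ 2 + (-76317093888 / 15625) * E2 r ^ 3) +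
    E3 p * ((-86827008 / 3125) + (64139063296 / 9375) * E4 r + (-64139063296 / 9375) * E3 r + (-232537931776 / 15625) * E3 r ^ 2 + (17894228992 / 46875) * E2 r + (-184023240704 / 46875) * E2 r * E4 r + (33251999744 / 1875) * E2 r * E3 r + (9868173312 / 15625) * E2 r ^ 2 + (-46842103808 / 15625) * E2 r ^ 3) +
    E3 p ^ 2 * ((-43413504 / 3125) + (-135293469184 / 3125) * E4 r + (-232537931776 / 15625) * E3 r + (-2098516713984 / 15625) * E3 r ^ 2 + (11382203392 / 15625) * E2 r + (2064934649856 / 15625) * E2 r * E4 r + (1204305378816 / 15625) * E2 r * E3 r + (-1450121216 / 15625) * E2 r ^ 2 + (-184210825216 / 15625) * E2 r ^ 3) +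
    E2 p * ((86827008 / 3125) + (-17894228992 / 46875) * E4 r + (17894228992 / 46875) * E3 r + (11382203392 / 15625) * E3 r ^ 2 + (-17894228992 / 46875) * E2 r + (22764406784 / 15625) * E2 r * E4 r + (-86187449344 / 46875) * E2 r * E3 r + (52040839168 / 46875) * E2 r ^ 2 + (-22764406784 / 46875) * E2 r ^ 3) +
    E2 p * E4 p * ((-86827008 / 3125) + (19592892686336 / 46875) * E4 r + (-184023240704 / 46875) * E3 r + (2064934649856 / 15625) * E3 r ^ 2 + (22764406784 / 15625) * E2 r + (-55431398606848 / 46875) * E2 r * E4 r + (-175668371456 / 9375) * E2 r * E3 r + (-335282163712 / 46875) * E2 r ^ 2 + (26253228032 / 1875) * E2 r ^ 3) +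
    E2 p * E3 p * ((173654016 / 3125) + (816660470272 / 46875) * E4 r + (33251999744 / 1875) * E3 r + (1204305378816 / 15625) * E3 r ^ 2 + (-86187449344 / 46875) * E2 r + (-175668371456 / 9375) * E2 r * E4 r + (-248146625024 / 3125) * E2 r * E3 r + (142386925568 / 46875) * E2 r ^ 2 + (549732233216 / 46875) * E2 r ^ 3) +
    E2 p ^ 2 * ((-130240512 / 3125) + (-9868173312 / 15625) * E4 r + (9868173312 / 15625) * E3 r + (-1450121216 / 15625) * E3 r ^ 2 + (52040839168 / 46875) * E2 r + (-335282163712 / 46875) * E2 r * E4 r + (142386925568 / 46875) * E2 r * E3 r + (-73227307008 / 15625) * E2 r ^ 2 + (11079397376 / 3125) * E2 r ^ 3) +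
    E2 p ^ 3 * ((28942336 / 3125) + (-76317093888 / 15625) * E4 r + (-46842103808 / 15625) * E3 r + (-184210825216 / 15625) * E3 r ^ 2 + (-22764406784 / 46875) * E2 r + (26253228032 / 1875) * E2 r * E4 r + (549732233216 / 46875) * E2 r * E3 r + (11079397376 / 3125) * E2 r ^ 2 + (-327637379072 / 46875) * E2 r ^ 3) := by
  unfold Ksum LTC6
  simp only [List.map_cons, List.map_nil, List.sum_cons, List.sum_nil, mo_2_2_1_1, mo_2_2_2_0, mo_3_1_1_1, mo_3_2_1_0, mo_3_3_0_0, mo_4_1_1_0, mo_4_2_0_0, mo_5_1_0_0, mo_6_0_0_0, hp, hr,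
    Fin.sum_univ_four, Matrix.cons_val]
  ring

end Vale.Agent.P154.Q4
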