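import Vale.Agent.P154.Q4Mo7
import Vale.Agent.P154.Q4E

/-! P154, four states: a part of degree 7 of a polynomial -/

namespace Vale.Agent.P154.Q4

open Vale.Agent.P154.G

/-- coefficients on the symmetric monomials of degree 7 -/
noncomputable def LTC7 : List ((Fin 4 → ℕ) × ℝ) :=
  [(![2, 2, 2, 1], (12802771139 / 2250000)), (![3, 2, 1, 1], (6264598937 / 750000)), (![3, 2, 2, 0], (97008671 / 150000)), (![3, 3, 1, 0], (18504428 / 46875)), (![4, 1, 1, 1], (995275103 / 1125000)), (![4, 2, 1, 0], (8545003 / 15625)), (![4, 3, 0, 0], (5664509 / 125000)), (![5, 1, 1, 0], (30221923 / 375000)), (![5, 2, 0, 0], (347779 / 15625)), (![6, 1, 0, 0], (1075173 / 250000)), (![7, 0, 0, 0], (22553 / 2250000))]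

theorem Tsum_TC7 (v : V 4) : Tsum LTC7 v =
    (112008001 / 375000) * E3 v * E4 v + (117689 / 93750) * E2 v ^ 2 * E3 v + (-7516427 / 93750) * sg v * E3 v ^ 2 + (688526789 / 375000) * sg v * E2 v * E4 v + (-61699 / 187500) * sg v * E2 v ^ 3 + (-1242508 / 46875) * sg v ^ 2 * E2 v * E3 v + (242213623 / 62500) * sg v ^ 3 * E4 v + (881539 / 375000) * sg v ^ 3 * E2 v ^ 2 + (11994707 / 187500) * sg v ^ 4 * E3 v + (383456 / 46875) * sg v ^ 5 * E2 v + (22553 / 375000) * sg v ^ 7 := by
  unfold Tsum LTC7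
  simp only [List.map_cons, List.map_nil, List.sum_cons, List.sum_nil, mo_2_2_2_1, mo_3_2_1_1, mo_3_2_2_0, mo_3_3_1_0, mo_4_1_1_1, mo_4_2_1_0, mo_4_3_0_0, mo_5_1_1_0, mo_5_2_0_0, mo_6_1_0_0, mo_7_0_0_0]
  ring

set_option maxHeartbeats 2000000 in
theorem Ksum_TC7 {p r : V 4} (hp : sg p = 1) (hr : sg r = 1) : Ksum LTC7 p r =
    ((92377088 / 15625) + (-646639616 / 15625) * E4 r + (646639616 / 15625) * E3 r + (-646639616 / 15625) * E3 r * E4 r + (646639616 / 15625) * E3 r ^ 2 + (-646639616 / 15625) * E2 r + (1293279232 / 15625) * E2 r * E4 r + (-1939918848 / 15625) * E2 r * E3 r + (1293279232 / 15625) * E2 r ^ 2 + (646639616 / 15625) * E2 r ^ 2 * E3 r + (-646639616 / 15625) * E2 r ^ 3) +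
    E4 p * ((-646639616 / 15625) + (30040689262592 / 46875) * E4 r + (-547873685504 / 46875) * E3 r + (76607875457024 / 46875) * E3 r * E4 r + (1334172381184 / 46875) * E3 r ^ 2 + (1786077184 / 3125) * E2 r + (-1142901334016 / 625) * E2 r * E4 r + (-542441316352 / 46875) * E2 r * E3 r + (14511591424 / 15625) * E2 r ^ 2 + (382286061568 / 9375) * E2 r ^ 2 * E3 r + (29004726272 / 15625) * E2 r ^ 3) +
    E3 p * ((646639616 / 15625) + (-547873685504 / 46875) * E4 r + (547873685504 / 46875) * E3 r + (-2796373336064 / 46875) * E3 r * E4 r + (2014004178944 / 46875) * E3 r ^ 2 + (-1786077184 / 3125) * E2 r + (474198573056 / 15625) * E2 r * E4 r + (-1970469404672 / 46875) * E2 r * E3 r + (-14511591424 / 15625) * E2 r ^ 2 + (190960697344 / 46875) * E2 r ^ 2 * E3 r + (110206246912 / 15625) * E2 r ^ 3) +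
    E3 p * E4 p * ((-646639616 / 15625) + (76607875457024 / 46875) * E4 r + (-2796373336064 / 46875) * E3 r + (132400988852224 / 9375) * E3 r * E4 r + (-27420187983872 / 46875) * E3 r ^ 2 + (35353837568 / 15625) * E2 r + (-312417015099392 / 46875) * E2 r * E4 r + (2385043013632 / 9375) * E2 r * E3 r + (-3645444096 / 15625) * E2 r ^ 2 + (383230312448 / 3125) * E2 r ^ 2 * E3 r + (-551987945472 / 15625) * E2 r ^ 3) +
    E3 p ^ 2 * ((646639616 / 15625) + (1334172381184 / 46875) * E4 r + (2014004178944 / 46875) * E3 r + (-27420187983872 / 46875) * E3 r * E4 r + (18274486157312 / 46875) * E3 r ^ 2 + (-22142111744 / 15625) * E2 r + (-964802658304 / 46875) * E2 r * E4 r + (-9857574514688 / 46875) * E2 r * E3 r + (-62413185024 / 15625) * E2 r ^ 2 + (-90215092224 / 3125) * E2 r ^ 2 * E3 r + (618046574592 / 15625) * E2 r ^ 3) +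
    E2 p * ((-646639616 / 15625) + (1786077184 / 3125) * E4 r + (-1786077184 / 3125) * E3 r + (35353837568 / 15625) * E3 r * E4 r + (-22142111744 / 15625) * E3 r ^ 2 + (1786077184 / 3125) * E2 r + (-44284223488 / 15625) * E2 r * E4 r + (53214609408 / 15625) * E2 r * E3 r + (-31072497664 / 15625) * E2 r ^ 2 + (-35353837568 / 15625) * E2 r ^ 2 * E3 r + (26546020352 / 15625) * E2 r ^ 3) +
    E2 p * E4 p * ((1293279232 / 15625) + (-1142901334016 / 625) * E4 r + (474198573056 / 15625) * E3 r + (-312417015099392 / 46875) * E3 r * E4 r + (-964802658304 / 46875) * E3 r ^ 2 + (-44284223488 / 15625) * E2 r + (286617569497088 / 46875) * E2 r * E4 r + (-483128745984 / 15625) * E2 r * E3 r + (103094075392 / 15625) * E2 r ^ 2 + (-6222378180608 / 46875) * E2 r ^ 2 * E3 r + (-4512079872 / 15625) * E2 r ^ 3) +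
    E2 p * E3 p * ((-1939918848 / 15625) + (-542441316352 / 46875) * E4 r + (-1970469404672 / 46875) * E3 r + (2385043013632 / 9375) * E3 r * E4 r + (-9857574514688 / 46875) * E3 r ^ 2 + (53214609408 / 15625) * E2 r + (-483128745984 / 15625) * E2 r * E4 r + (9288056127488 / 46875) * E2 r * E3 r + (-88582483968 / 15625) * E2 r ^ 2 + (-2045305618432 / 46875) * E2 r ^ 2 * E3 r + (-67542491136 / 3125) * E2 r ^ 3) +
    E2 p ^ 2 * ((1293279232 / 15625) + (14511591424 / 15625) * E4 r + (-14511591424 / 15625) * E3 r + (-3645444096 / 15625) * E3 r * E4 r + (-62413185024 / 15625) * E3 r ^ 2 + (-31072497664 / 15625) * E2 r + (103094075392 / 15625) * E2 r * E4 r + (-88582483968 / 15625) * E2 r * E3 r + (150995668992 / 15625) * E2 r ^ 2 + (231565889536 / 15625) * E2 r ^ 2 * E3 r + (-187526803456 / 15625) * E2 r ^ 3) +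
    E2 p ^ 2 * E3 p * ((646639616 / 15625) + (382286061568 / 9375) * E4 r + (190960697344 / 46875) * E3 r + (383230312448 / 3125) * E3 r * E4 r + (-90215092224 / 3125) * E3 r ^ 2 + (-35353837568 / 15625) * E2 r + (-6222378180608 / 46875) * E2 r * E4 r + (-2045305618432 / 46875) * E2 r * E3 r + (231565889536 / 15625) * E2 r ^ 2 + (1059716857856 / 9375) * E2 r ^ 2 * E3 r + (-410195337216 / 15625) * E2 r ^ 3) +
    E2 p ^ 3 * ((-646639616 / 15625) + (29004726272 / 15625) * E4 r + (110206246912 / 15625) * E3 r + (-551987945472 / 15625) * E3 r * E4 r + (618046574592 / 15625) * E3 r ^ 2 + (26546020352 / 15625) * E2 r + (-4512079872 / 15625) * E2 r * E4 r + (-67542491136 / 3125) * E2 r * E3 r + (-187526803456 / 15625) * E2 r ^ 2 + (-410195337216 / 15625) * E2 r ^ 2 * E3 r + (366156251136 / 15625) * E2 r ^ 3) := by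
  unfold Ksum LTC7
  simp only [List.map_cons, List.map_nil, List.sum_cons, List.sum_nil, mo_2_2_2_1, mo_3_2_1_1, mo_3_2_2_0, mo_3_3_1_0, mo_4_1_1_1, mo_4_2_1_0, mo_4_3_0_0, mo_5_1_1_0, mo_5_2_0_0, mo_6_1_0_0, mo_7_0_0_0, hp, hr,
    Fin.sum_univ_four, Matrix.cons_val]
  ring

end Vale.Agent.P154.Q4
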