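import Vale.Agent.P154.Q4Mo8
import Vale.Agent.P154.Q4E

/-! P154, four states: a part of degree 8 of a polynomial -/

namespace Vale.Agent.P154.Q4

open Vale.Agent.P154.G

/-- coefficients on the symmetric monomials of degree 8 -/
noncomputable def LTC8b : List ((Fin 4 → ℕ) × ℝ) :=
  [(![4, 2, 1, 1], (-676328933 / 150000)), (![4, 2, 2, 0], (-177733537 / 750000)), (![4, 3, 1, 0], (-39368847 / 125000)), (![4, 4, 0, 0], (-2207931 / 250000))]

theorem Tsum_TC8b (v : V 4) : Tsum LTC8b v =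
    (-39834259 / 1250) * E4 v ^ 2 + (420583271 / 375000) * E2 v * E3 v ^ 2 + (3052672763 / 187500) * E2 v ^ 2 * E4 v + (-2207931 / 62500) * E2 v ^ 4 + (2306559943 / 375000) * sg v * E3 v * E4 v + (-21705399 / 125000) * sg v * E2 v ^ 2 * E3 v + (31984373 / 375000) * sg v ^ 2 * E3 v ^ 2 + (-1480530697 / 187500) * sg v ^ 2 * E2 v * E4 v := by
  unfold Tsum LTC8b
  simp only [List.map_cons, List.map_nil, List.sum_cons, List.sum_nil, mo_4_2_1_1, mo_4_2_2_0, mo_4_3_1_0, mo_4_4_0_0]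
  ring

set_option maxHeartbeats 2000000 in
theorem Ksum_TC8b {p r : V 4} (hp : sg p = 1) (hr : sg r = 1) : Ksum LTC8b p r =
    E4 p ^ 2 * ((-1010618969882624 / 46875) * E4 r ^ 2 + (319858418581504 / 46875) * E3 r * E4 r + (-9041678237696 / 46875) * E3 r ^ 2 + (-87691303583744 / 15625) * E2 r * E4 r + (-41454445985792 / 46875) * E2 r * E3 r ^ 2 + (33349935693824 / 3125) * E2 r ^ 2 * E4 r + (6052851941376 / 15625) * E2 r ^ 2 * E3 r + (-868193796096 / 15625) * E2 r ^ 4) +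
    E3 p * E4 p * ((319858418581504 / 46875) * E4 r ^ 2 + (-179939946053632 / 46875) * E3 r * E4 r + (8765375348736 / 15625) * E3 r ^ 2 + (78971254767616 / 46875) * E2 r * E4 r + (7855462858752 / 15625) * E2 r * E3 r ^ 2 + (-124700833120256 / 46875) * E2 r ^ 2 * E4 r + (-7855462858752 / 15625) * E2 r ^ 2 * E3 r + (1157591728128 / 15625) * E2 r ^ 4) +
    E3 p ^ 2 * ((-9041678237696 / 46875) * E4 r ^ 2 + (8765375348736 / 15625) * E3 r * E4 r + (-8518488997888 / 46875) * E3 r ^ 2 + (416139788288 / 46875) * E2 r * E4 r + (416139788288 / 46875) * E2 r * E3 r ^ 2 + (-8175169896448 / 46875) * E2 r ^ 2 * E4 r + (1802610917376 / 15625) * E2 r ^ 2 * E3 r + (-289397932032 / 15625) * E2 r ^ 4) +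
    E2 p * E4 p * ((-87691303583744 / 15625) * E4 r ^ 2 + (78971254767616 / 46875) * E3 r * E4 r + (416139788288 / 46875) * E3 r ^ 2 + (-74965890424832 / 46875) * E2 r * E4 r + (-19561024233472 / 46875) * E2 r * E3 r ^ 2 + (141051172913152 / 46875) * E2 r ^ 2 * E4 r + (527538610176 / 3125) * E2 r ^ 2 * E3 r + (-578795864064 / 15625) * E2 r ^ 4) +
    E2 p * E3 p ^ 2 * ((-41454445985792 / 46875) * E4 r ^ 2 + (7855462858752 / 15625) * E3 r * E4 r + (416139788288 / 46875) * E3 r ^ 2 + (-19561024233472 / 46875) * E2 r * E4 r + (-19561024233472 / 46875) * E2 r * E3 r ^ 2 + (30241440530432 / 46875) * E2 r ^ 2 * E4 r + (527538610176 / 3125) * E2 r ^ 2 * E3 r + (-578795864064 / 15625) * E2 r ^ 4) +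
    E2 p ^ 2 * E4 p * ((33349935693824 / 3125) * E4 r ^ 2 + (-124700833120256 / 46875) * E3 r * E4 r + (-8175169896448 / 46875) * E3 r ^ 2 + (141051172913152 / 46875) * E2 r * E4 r + (30241440530432 / 46875) * E2 r * E3 r ^ 2 + (-275156795457536 / 46875) * E2 r ^ 2 * E4 r + (-2315183456256 / 15625) * E2 r ^ 2 * E3 r + (578795864064 / 15625) * E2 r ^ 4) +
    E2 p ^ 2 * E3 p * ((6052851941376 / 15625) * E4 r ^ 2 + (-7855462858752 / 15625) * E3 r * E4 r + (1802610917376 / 15625) * E3 r ^ 2 + (527538610176 / 3125) * E2 r * E4 r + (527538610176 / 3125) * E2 r * E3 r ^ 2 + (-2315183456256 / 15625) * E2 r ^ 2 * E4 r + (-527538610176 / 3125) * E2 r ^ 2 * E3 r + (578795864064 / 15625) * E2 r ^ 4) +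
    E2 p ^ 4 * ((-868193796096 / 15625) * E4 r ^ 2 + (1157591728128 / 15625) * E3 r * E4 r + (-289397932032 / 15625) * E3 r ^ 2 + (-578795864064 / 15625) * E2 r * E4 r + (-578795864064 / 15625) * E2 r * E3 r ^ 2 + (578795864064 / 15625) * E2 r ^ 2 * E4 r + (578795864064 / 15625) * E2 r ^ 2 * E3 r + (-144698966016 / 15625) * E2 r ^ 4) := by
  unfold Ksum LTC8b
  simp only [List.map_cons, List.map_nil, List.sum_cons, List.sum_nil, mo_4_2_1_1, mo_4_2_2_0, mo_4_3_1_0, mo_4_4_0_0, hp, hr,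
    Fin.sum_univ_four, Matrix.cons_val]
  ring

end Vale.Agent.P154.Q4
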