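import Vale.Agent.P154.Q4Mo9
import Vale.Agent.P154.Q4E

/-! P154, four states: a part of degree 9 of a polynomial -/

namespace Vale.Agent.P154.Q4

open Vale.Agent.P154.G

/-- coefficients on the symmetric monomials of degree 9 -/
noncomputable def LTC9c : List ((Fin 4 → ℕ) × ℝ) :=
  [(![4, 4, 1, 0], (861337 / 25000)), (![5, 2, 1, 1], (134762441 / 150000)), (![5, 2, 2, 0], (12665653 / 375000))]

theorem Tsum_TC9c (v : V 4) : Tsum LTC9c v =
    (6396427 / 15625) * E3 v ^ 3 + (3165392969 / 375000) * E2 v * E3 v * E4 v + (861337 / 12500) * E2 v ^ 3 * E3 v + (519280349 / 375000) * sg v * E4 v ^ 2 + (-6396427 / 15625) * sg v * E2 v * E3 v ^ 2 + (-631762963 / 125000) * sg v * E2 v ^ 2 * E4 v + (-108922331 / 75000) * sg v ^ 2 * E3 v * E4 v + (12665653 / 187500) * sg v ^ 3 * E3 v ^ 2 + (207716531 / 125000) * sg v ^ 3 * E2 v * E4 v := by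
  unfold Tsum LTC9c
  simp only [List.map_cons, List.map_nil, List.sum_cons, List.sum_nil, mo_4_4_1_0, mo_5_2_1_1, mo_5_2_2_0]
  ring

set_option maxHeartbeats 2000000 in
theorem Ksum_TC9c {p r : V 4} (hp : sg p = 1) (hr : sg r = 1) : Ksum LTC9c p r =
    E4 p ^ 2 * ((29385168453632 / 15625) * E4 r ^ 2 + (-17299078578176 / 9375) * E3 r * E4 r + (-1660112470016 / 46875) * E3 r ^ 2 + (-10127399714816 / 15625) * E3 r ^ 3 + (47479181606912 / 46875) * E2 r * E4 r + (247690032644096 / 46875) * E2 r * E3 r * E4 r + (10127399714816 / 15625) * E2 r * E3 r ^ 2 + (-44656752525312 / 15625) * E2 r ^ 2 * E4 r + (-112897163264 / 625) * E2 r ^ 3 * E3 r) +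
    E3 p * E4 p * ((-17299078578176 / 9375) * E4 r ^ 2 + (17299078578176 / 9375) * E3 r * E4 r + (338691489792 / 625) * E3 r ^ 3 + (-8831791333376 / 9375) * E2 r * E4 r + (-1901834862592 / 375) * E2 r * E3 r * E4 r + (-338691489792 / 625) * E2 r * E3 r ^ 2 + (8267305517056 / 3125) * E2 r ^ 2 * E4 r + (112897163264 / 625) * E2 r ^ 3 * E3 r) +
    E3 p ^ 2 * ((-1660112470016 / 46875) * E4 r ^ 2 + (1660112470016 / 46875) * E3 r ^ 2 + (1660112470016 / 15625) * E3 r ^ 3 + (-3320224940032 / 46875) * E2 r * E4 r + (-3320224940032 / 15625) * E2 r * E3 r * E4 r + (-1660112470016 / 15625) * E2 r * E3 r ^ 2 + (3320224940032 / 15625) * E2 r ^ 2 * E4 r) +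
    E3 p ^ 3 * ((-10127399714816 / 15625) * E4 r ^ 2 + (338691489792 / 625) * E3 r * E4 r + (1660112470016 / 15625) * E3 r ^ 2 + (10060709756928 / 15625) * E3 r ^ 3 + (-3320224940032 / 15625) * E2 r * E4 r + (-13347589718016 / 15625) * E2 r * E3 r * E4 r + (-10060709756928 / 15625) * E2 r * E3 r ^ 2 + (8267217371136 / 15625) * E2 r ^ 2 * E4 r + (338691489792 / 3125) * E2 r ^ 3 * E3 r) +
    E2 p * E4 p * ((47479181606912 / 46875) * E4 r ^ 2 + (-8831791333376 / 9375) * E3 r * E4 r + (-3320224940032 / 46875) * E3 r ^ 2 + (-3320224940032 / 15625) * E3 r ^ 3 + (16933135515648 / 15625) * E2 r * E4 r + (240716132974592 / 46875) * E2 r * E3 r * E4 r + (3320224940032 / 15625) * E2 r * E3 r ^ 2 + (-50799406546944 / 15625) * E2 r ^ 2 * E4 r) +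
    E2 p * E3 p * E4 p * ((247690032644096 / 46875) * E4 r ^ 2 + (-1901834862592 / 375) * E3 r * E4 r + (-3320224940032 / 15625) * E3 r ^ 2 + (-13347589718016 / 15625) * E3 r ^ 3 + (240716132974592 / 46875) * E2 r * E4 r + (1170511795388416 / 46875) * E2 r * E3 r * E4 r + (13347589718016 / 15625) * E2 r * E3 r ^ 2 + (-239587161341952 / 15625) * E2 r ^ 2 * E4 r + (-225794326528 / 3125) * E2 r ^ 3 * E3 r) +
    E2 p * E3 p ^ 2 * ((10127399714816 / 15625) * E4 r ^ 2 + (-338691489792 / 625) * E3 r * E4 r + (-1660112470016 / 15625) * E3 r ^ 2 + (-10060709756928 / 15625) * E3 r ^ 3 + (3320224940032 / 15625) * E2 r * E4 r + (13347589718016 / 15625) * E2 r * E3 r * E4 r + (10060709756928 / 15625) * E2 r * E3 r ^ 2 + (-8267217371136 / 15625) * E2 r ^ 2 * E4 r + (-338691489792 / 3125) * E2 r ^ 3 * E3 r) +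
    E2 p ^ 2 * E4 p * ((-44656752525312 / 15625) * E4 r ^ 2 + (8267305517056 / 3125) * E3 r * E4 r + (3320224940032 / 15625) * E3 r ^ 2 + (8267217371136 / 15625) * E3 r ^ 3 + (-50799406546944 / 15625) * E2 r * E4 r + (-239587161341952 / 15625) * E2 r * E3 r * E4 r + (-8267217371136 / 15625) * E2 r * E3 r ^ 2 + (152962705457152 / 15625) * E2 r ^ 2 * E4 r + (-112897163264 / 3125) * E2 r ^ 3 * E3 r) +
    E2 p ^ 3 * E3 p * ((-112897163264 / 625) * E4 r ^ 2 + (112897163264 / 625) * E3 r * E4 r + (338691489792 / 3125) * E3 r ^ 3 + (-225794326528 / 3125) * E2 r * E3 r * E4 r + (-338691489792 / 3125) * E2 r * E3 r ^ 2 + (-112897163264 / 3125) * E2 r ^ 2 * E4 r + (112897163264 / 3125) * E2 r ^ 3 * E3 r) := by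
  unfold Ksum LTC9c
  simp only [List.map_cons, List.map_nil, List.sum_cons, List.sum_nil, mo_4_4_1_0, mo_5_2_1_1, mo_5_2_2_0, hp, hr,
    Fin.sum_univ_four, Matrix.cons_val]
  ring

end Vale.Agent.P154.Q4
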